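import Vale.Agent.P047.D4.Data

set_option maxRecDepth 100000

namespace Vale.Agent.P047.D4

theorem complete_ok : checkComplete groups tree.toList = true := by decide +kernel

def dead1 : List Nat := [137254099, 133092435, 124769045, 145577489, 147658321, 122688213, 126849877, 143496657, 124777173, 143537299, 145585555, 126890208]

def topL : List Nat := [137254099, 133092435, 124769045, 145577489, 147658321, 122688213, 126849877, 143496657, 135173267]

theorem L_ok : checkL tree topL = true := by decide +kernel

theorem tgt_ok_0 : checkTgt tree 137254099 0 0 0 0 5 5 4 3 [] = true := by decide +kernel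

theorem tgt_ok_1 : checkTgt tree 133092435 0 0 1 1 5 0 0 0 [] = true := by decide +kernel

theorem tgt_ok_2 : checkTgt tree 124769045 0 0 1 1 5 0 0 0 [] = true := by decide +kernel

theorem tgt_ok_3 : checkTgt tree 145577489 0 0 0 0 5 5 4 3 [] = true := by decide +kernel

theorem tgt_ok_4 : checkTgt tree 147658321 0 0 0 0 1 1 1 1 [] = true := by decide +kernel

theorem tgt_ok_5 : checkTgt tree 122688213 0 0 0 0 1 0 1 1 [] = true := by decide +kernel

theorem tgt_ok_6 : checkTgt tree 126849877 0 0 0 0 1 1 1 1 [] = true := by decide +kernel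

theorem tgt_ok_7 : checkTgt tree 143496657 0 0 0 0 1 1 1 1 [] = true := by decide +kernel

theorem tgt_ok_8 : checkTgt tree 124777173 0 0 0 0 3 5 5 4 [] = true := by decide +kernel

theorem tgt_ok_9 : checkTgt tree 143537299 0 2 3 3 3 0 0 0 [] = true := by decide +kernel

theorem tgt_ok_10 : checkTgt tree 145585555 0 2 2 1 3 0 0 0 [] = true := by decide +kernel

theorem tgt_ok_11 : checkTgt tree 126890208 0 0 0 0 5 5 4 3 [] = true := by decide +kernel

theorem tgt_ok_12 : checkTgt tree 135173267 0 0 0 0 6 6 5 6 dead1 = true := by decide +kernel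

end Vale.Agent.P047.D4
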