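import Vale.Agent.P047.D4.Chunk

set_option maxRecDepth 100000

namespace Vale.Agent.P047.D4

theorem c_37_0 : chunkOK 37 0 = true := by decide +kernel

theorem c_42_0 : chunkOK 42 0 = true := by decide +kernel

theorem c_48_2 : chunkOK 48 2 = true := by decide +kernel

theorem c_52_3 : chunkOK 52 3 = true := by decide +kernel

theorem c_55_2 : chunkOK 55 2 = true := by decide +kernel

theorem c_56_6 : chunkOK 56 6 = true := by decide +kernel

theorem c_57_5 : chunkOK 57 5 = true := by decide +kernel

theorem c_59_6 : chunkOK 59 6 = true := by decide +kernel

theorem c_63_2 : chunkOK 63 2 = true := by decide +kernel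

theorem c_65_6 : chunkOK 65 6 = true := by decide +kernel

theorem c_68_5 : chunkOK 68 5 = true := by decide +kernel

theorem c_70_3 : chunkOK 70 3 = true := by decide +kernel

theorem c_75_1 : chunkOK 75 1 = true := by decide +kernel

theorem c_77_4 : chunkOK 77 4 = true := by decide +kernel

end Vale.Agent.P047.D4
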