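import Vale.Agent.P047.D4.Chunk

set_option maxRecDepth 100000

namespace Vale.Agent.P047.D4

theorem c_35_0 : chunkOK 35 0 = true := by decide +kernel

theorem c_54_3 : chunkOK 54 3 = true := by decide +kernel

theorem c_58_1 : chunkOK 58 1 = true := by decide +kernel

theorem c_60_3 : chunkOK 60 3 = true := by decide +kernel

theorem c_64_5 : chunkOK 64 5 = true := by decide +kernel

theorem c_66_1 : chunkOK 66 1 = true := by decide +kernel

theorem c_67_1 : chunkOK 67 1 = true := by decide +kernel

theorem c_72_2 : chunkOK 72 2 = true := by decide +kernel

theorem c_73_4 : chunkOK 73 4 = true := by decide +kernel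

theorem c_73_5 : chunkOK 73 5 = true := by decide +kernel

theorem c_78_3 : chunkOK 78 3 = true := by decide +kernel

theorem c_79_3 : chunkOK 79 3 = true := by decide +kernel

theorem c_81_2 : chunkOK 81 2 = true := by decide +kernel

theorem c_93_0 : chunkOK 93 0 = true := by decide +kernel

end Vale.Agent.P047.D4
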