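import Vale.Agent.P047.D4.Chunk

set_option maxRecDepth 100000

namespace Vale.Agent.P047.D4

theorem c_49_3 : chunkOK 49 3 = true := by decide +kernel

theorem c_50_3 : chunkOK 50 3 = true := by decide +kernel

theorem c_54_2 : chunkOK 54 2 = true := by decide +kernel

theorem c_55_5 : chunkOK 55 5 = true := by decide +kernel

theorem c_58_0 : chunkOK 58 0 = true := by decide +kernel

theorem c_60_2 : chunkOK 60 2 = true := by decide +kernel

theorem c_64_4 : chunkOK 64 4 = true := by decide +kernel

theorem c_66_0 : chunkOK 66 0 = true := by decide +kernel

theorem c_67_0 : chunkOK 67 0 = true := by decide +kernel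

theorem c_72_1 : chunkOK 72 1 = true := by decide +kernel

theorem c_73_3 : chunkOK 73 3 = true := by decide +kernel

theorem c_81_1 : chunkOK 81 1 = true := by decide +kernel

theorem c_84_2 : chunkOK 84 2 = true := by decide +kernel

theorem c_92_0 : chunkOK 92 0 = true := by decide +kernel

end Vale.Agent.P047.D4
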