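import Vale.Agent.P047.D4.Chunk

set_option maxRecDepth 100000

namespace Vale.Agent.P047.D4

theorem c_50_1 : chunkOK 50 1 = true := by decide +kernel

theorem c_53_3 : chunkOK 53 3 = true := by decide +kernel

theorem c_60_1 : chunkOK 60 1 = true := by decide +kernel

theorem c_61_7 : chunkOK 61 7 = true := by decide +kernel

theorem c_62_7 : chunkOK 62 7 = true := by decide +kernel

theorem c_64_3 : chunkOK 64 3 = true := by decide +kernel

theorem c_65_8 : chunkOK 65 8 = true := by decide +kernel

theorem c_66_8 : chunkOK 66 8 = true := by decide +kernel

theorem c_68_7 : chunkOK 68 7 = true := by decide +kernel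

theorem c_72_0 : chunkOK 72 0 = true := by decide +kernel

theorem c_77_1 : chunkOK 77 1 = true := by decide +kernel

theorem c_82_0 : chunkOK 82 0 = true := by decide +kernel

theorem c_86_1 : chunkOK 86 1 = true := by decide +kernel

theorem c_95_0 : chunkOK 95 0 = true := by decide +kernel

end Vale.Agent.P047.D4
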