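import Vale.Agent.P047.D4.Chunk

set_option maxRecDepth 100000

namespace Vale.Agent.P047.D4

theorem c_33_0 : chunkOK 33 0 = true := by decide +kernel

theorem c_42_1 : chunkOK 42 1 = true := by decide +kernel

theorem c_46_2 : chunkOK 46 2 = true := by decide +kernel

theorem c_50_0 : chunkOK 50 0 = true := by decide +kernel

theorem c_53_2 : chunkOK 53 2 = true := by decide +kernel

theorem c_56_5 : chunkOK 56 5 = true := by decide +kernel

theorem c_60_0 : chunkOK 60 0 = true := by decide +kernel

theorem c_60_7 : chunkOK 60 7 = true := by decide +kernel

theorem c_61_6 : chunkOK 61 6 = true := by decide +kernel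

theorem c_62_6 : chunkOK 62 6 = true := by decide +kernel

theorem c_62_8 : chunkOK 62 8 = true := by decide +kernel

theorem c_64_2 : chunkOK 64 2 = true := by decide +kernel

theorem c_64_8 : chunkOK 64 8 = true := by decide +kernel

theorem c_77_0 : chunkOK 77 0 = true := by decide +kernel

end Vale.Agent.P047.D4
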