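import Vale.Agent.P047.D4.Chunk

set_option maxRecDepth 100000

namespace Vale.Agent.P047.D4

theorem c_36_0 : chunkOK 36 0 = true := by decide +kernel

theorem c_51_3 : chunkOK 51 3 = true := by decide +kernel

theorem c_51_4 : chunkOK 51 4 = true := by decide +kernel

theorem c_54_1 : chunkOK 54 1 = true := by decide +kernel

theorem c_54_5 : chunkOK 54 5 = true := by decide +kernel

theorem c_59_3 : chunkOK 59 3 = true := by decide +kernel

theorem c_61_5 : chunkOK 61 5 = true := by decide +kernel

theorem c_62_5 : chunkOK 62 5 = true := by decide +kernel

theorem c_64_1 : chunkOK 64 1 = true := by decide +kernel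

theorem c_69_6 : chunkOK 69 6 = true := by decide +kernel

theorem c_71_4 : chunkOK 71 4 = true := by decide +kernel

theorem c_73_2 : chunkOK 73 2 = true := by decide +kernel

theorem c_80_2 : chunkOK 80 2 = true := by decide +kernel

theorem c_85_1 : chunkOK 85 1 = true := by decide +kernel

end Vale.Agent.P047.D4
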