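import Vale.Agent.P047.D4.Chunk

set_option maxRecDepth 100000

namespace Vale.Agent.P047.D4

theorem c_44_2 : chunkOK 44 2 = true := by decide +kernel

theorem c_51_2 : chunkOK 51 2 = true := by decide +kernel

theorem c_54_0 : chunkOK 54 0 = true := by decide +kernel

theorem c_59_2 : chunkOK 59 2 = true := by decide +kernel

theorem c_61_4 : chunkOK 61 4 = true := by decide +kernel

theorem c_62_4 : chunkOK 62 4 = true := by decide +kernel

theorem c_64_0 : chunkOK 64 0 = true := by decide +kernel

theorem c_69_5 : chunkOK 69 5 = true := by decide +kernel

theorem c_71_3 : chunkOK 71 3 = true := by decide +kernel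

theorem c_71_6 : chunkOK 71 6 = true := by decide +kernel

theorem c_73_1 : chunkOK 73 1 = true := by decide +kernel

theorem c_80_1 : chunkOK 80 1 = true := by decide +kernel

theorem c_85_0 : chunkOK 85 0 = true := by decide +kernel

theorem c_88_0 : chunkOK 88 0 = true := by decide +kernel

end Vale.Agent.P047.D4
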