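import Vale.Agent.P047.D4.Chunk

set_option maxRecDepth 100000

namespace Vale.Agent.P047.D4

theorem c_34_0 : chunkOK 34 0 = true := by decide +kernel

theorem c_43_1 : chunkOK 43 1 = true := by decide +kernel

theorem c_46_1 : chunkOK 46 1 = true := by decide +kernel

theorem c_49_2 : chunkOK 49 2 = true := by decide +kernel

theorem c_59_1 : chunkOK 59 1 = true := by decide +kernel

theorem c_61_3 : chunkOK 61 3 = true := by decide +kernel

theorem c_62_3 : chunkOK 62 3 = true := by decide +kernel

theorem c_63_7 : chunkOK 63 7 = true := by decide +kernel

theorem c_69_4 : chunkOK 69 4 = true := by decide +kernel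

theorem c_71_2 : chunkOK 71 2 = true := by decide +kernel

theorem c_73_0 : chunkOK 73 0 = true := by decide +kernel

theorem c_75_4 : chunkOK 75 4 = true := by decide +kernel

theorem c_76_1 : chunkOK 76 1 = true := by decide +kernel

theorem c_87_0 : chunkOK 87 0 = true := by decide +kernel

end Vale.Agent.P047.D4
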