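import Vale.Agent.P047.D4.Chunk

set_option maxRecDepth 100000

namespace Vale.Agent.P047.D4

theorem c_24_0 : chunkOK 24 0 = true := by decide +kernel

theorem c_28_0 : chunkOK 28 0 = true := by decide +kernel

theorem c_30_0 : chunkOK 30 0 = true := by decide +kernel

theorem c_47_2 : chunkOK 47 2 = true := by decide +kernel

theorem c_51_0 : chunkOK 51 0 = true := by decide +kernel

theorem c_53_0 : chunkOK 53 0 = true := by decide +kernel

theorem c_56_3 : chunkOK 56 3 = true := by decide +kernel

theorem c_61_1 : chunkOK 61 1 = true := by decide +kernel

theorem c_62_1 : chunkOK 62 1 = true := by decide +kernel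

theorem c_63_5 : chunkOK 63 5 = true := by decide +kernel

theorem c_63_8 : chunkOK 63 8 = true := by decide +kernel

theorem c_69_2 : chunkOK 69 2 = true := by decide +kernel

theorem c_70_6 : chunkOK 70 6 = true := by decide +kernel

theorem c_79_2 : chunkOK 79 2 = true := by decide +kernel

theorem c_84_1 : chunkOK 84 1 = true := by decide +kernel

theorem c_89_0 : chunkOK 89 0 = true := by decide +kernel

theorem c_96_0 : chunkOK 96 0 = true := by decide +kernel

theorem c_99_0 : chunkOK 99 0 = true := by decide +kernel

theorem c_101_0 : chunkOK 101 0 = true := by decide +kernel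

theorem c_104_0 : chunkOK 104 0 = true := by decide +kernel

end Vale.Agent.P047.D4
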