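import Vale.Agent.P047.D4.Chunk

set_option maxRecDepth 100000

namespace Vale.Agent.P047.D4

theorem c_40_0 : chunkOK 40 0 = true := by decide +kernel

theorem c_43_0 : chunkOK 43 0 = true := by decide +kernel

theorem c_51_1 : chunkOK 51 1 = true := by decide +kernel

theorem c_53_1 : chunkOK 53 1 = true := by decide +kernel

theorem c_56_4 : chunkOK 56 4 = true := by decide +kernel

theorem c_57_6 : chunkOK 57 6 = true := by decide +kernel

theorem c_61_0 : chunkOK 61 0 = true := by decide +kernel

theorem c_62_0 : chunkOK 62 0 = true := by decide +kernel

theorem c_63_4 : chunkOK 63 4 = true := by decide +kernel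

theorem c_69_1 : chunkOK 69 1 = true := by decide +kernel

theorem c_70_5 : chunkOK 70 5 = true := by decide +kernel

theorem c_71_5 : chunkOK 71 5 = true := by decide +kernel

theorem c_76_5 : chunkOK 76 5 = true := by decide +kernel

theorem c_80_0 : chunkOK 80 0 = true := by decide +kernel

end Vale.Agent.P047.D4
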