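import Vale.Agent.P047.D4.Chunk

set_option maxRecDepth 100000

namespace Vale.Agent.P047.D4

theorem c_27_0 : chunkOK 27 0 = true := by decide +kernel

theorem c_38_0 : chunkOK 38 0 = true := by decide +kernel

theorem c_45_0 : chunkOK 45 0 = true := by decide +kernel

theorem c_48_1 : chunkOK 48 1 = true := by decide +kernel

theorem c_52_2 : chunkOK 52 2 = true := by decide +kernel

theorem c_55_1 : chunkOK 55 1 = true := by decide +kernel

theorem c_57_4 : chunkOK 57 4 = true := by decide +kernel

theorem c_59_5 : chunkOK 59 5 = true := by decide +kernel

theorem c_63_1 : chunkOK 63 1 = true := by decide +kernel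

theorem c_65_5 : chunkOK 65 5 = true := by decide +kernel

theorem c_68_4 : chunkOK 68 4 = true := by decide +kernel

theorem c_70_2 : chunkOK 70 2 = true := by decide +kernel

theorem c_75_0 : chunkOK 75 0 = true := by decide +kernel

theorem c_81_3 : chunkOK 81 3 = true := by decide +kernel

theorem c_83_1 : chunkOK 83 1 = true := by decide +kernel

theorem c_89_1 : chunkOK 89 1 = true := by decide +kernel

theorem c_100_0 : chunkOK 100 0 = true := by decide +kernel

theorem c_102_0 : chunkOK 102 0 = true := by decide +kernel

theorem c_103_0 : chunkOK 103 0 = true := by decide +kernel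

end Vale.Agent.P047.D4
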