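import Vale.Agent.P047.D4.Chunk

set_option maxRecDepth 100000

namespace Vale.Agent.P047.D4

theorem c_41_1 : chunkOK 41 1 = true := by decide +kernel

theorem c_48_0 : chunkOK 48 0 = true := by decide +kernel

theorem c_52_1 : chunkOK 52 1 = true := by decide +kernel

theorem c_53_4 : chunkOK 53 4 = true := by decide +kernel

theorem c_55_0 : chunkOK 55 0 = true := by decide +kernel

theorem c_57_3 : chunkOK 57 3 = true := by decide +kernel

theorem c_59_4 : chunkOK 59 4 = true := by decide +kernel

theorem c_63_0 : chunkOK 63 0 = true := by decide +kernel

theorem c_65_4 : chunkOK 65 4 = true := by decide +kernel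

theorem c_68_3 : chunkOK 68 3 = true := by decide +kernel

theorem c_70_1 : chunkOK 70 1 = true := by decide +kernel

theorem c_80_3 : chunkOK 80 3 = true := by decide +kernel

theorem c_83_0 : chunkOK 83 0 = true := by decide +kernel

theorem c_88_1 : chunkOK 88 1 = true := by decide +kernel

end Vale.Agent.P047.D4
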