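import Vale.Agent.P047.D4.Chunk

set_option maxRecDepth 100000

namespace Vale.Agent.P047.D4

theorem c_29_0 : chunkOK 29 0 = true := by decide +kernel

theorem c_32_0 : chunkOK 32 0 = true := by decide +kernel

theorem c_39_0 : chunkOK 39 0 = true := by decide +kernel

theorem c_45_1 : chunkOK 45 1 = true := by decide +kernel

theorem c_52_0 : chunkOK 52 0 = true := by decide +kernel

theorem c_57_2 : chunkOK 57 2 = true := by decide +kernel

theorem c_65_3 : chunkOK 65 3 = true := by decide +kernel

theorem c_66_7 : chunkOK 66 7 = true := by decide +kernel

theorem c_67_7 : chunkOK 67 7 = true := by decide +kernel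

theorem c_68_2 : chunkOK 68 2 = true := by decide +kernel

theorem c_70_0 : chunkOK 70 0 = true := by decide +kernel

theorem c_74_1 : chunkOK 74 1 = true := by decide +kernel

theorem c_74_4 : chunkOK 74 4 = true := by decide +kernel

theorem c_74_5 : chunkOK 74 5 = true := by decide +kernel

theorem c_84_0 : chunkOK 84 0 = true := by decide +kernel

theorem c_98_0 : chunkOK 98 0 = true := by decide +kernel

end Vale.Agent.P047.D4
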