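import Vale.Agent.P047.D4.Chunk

set_option maxRecDepth 100000

namespace Vale.Agent.P047.D4

theorem c_44_1 : chunkOK 44 1 = true := by decide +kernel

theorem c_52_5 : chunkOK 52 5 = true := by decide +kernel

theorem c_57_1 : chunkOK 57 1 = true := by decide +kernel

theorem c_58_6 : chunkOK 58 6 = true := by decide +kernel

theorem c_65_2 : chunkOK 65 2 = true := by decide +kernel

theorem c_66_6 : chunkOK 66 6 = true := by decide +kernel

theorem c_67_6 : chunkOK 67 6 = true := by decide +kernel

theorem c_68_1 : chunkOK 68 1 = true := by decide +kernel

theorem c_74_0 : chunkOK 74 0 = true := by decide +kernel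

theorem c_74_3 : chunkOK 74 3 = true := by decide +kernel

theorem c_77_3 : chunkOK 77 3 = true := by decide +kernel

theorem c_78_0 : chunkOK 78 0 = true := by decide +kernel

theorem c_82_2 : chunkOK 82 2 = true := by decide +kernel

theorem c_90_0 : chunkOK 90 0 = true := by decide +kernel

end Vale.Agent.P047.D4
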