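import Vale.Agent.P047.D4.Chunk

set_option maxRecDepth 100000

namespace Vale.Agent.P047.D4

theorem c_44_0 : chunkOK 44 0 = true := by decide +kernel

theorem c_50_2 : chunkOK 50 2 = true := by decide +kernel

theorem c_54_4 : chunkOK 54 4 = true := by decide +kernel

theorem c_57_0 : chunkOK 57 0 = true := by decide +kernel

theorem c_58_5 : chunkOK 58 5 = true := by decide +kernel

theorem c_65_1 : chunkOK 65 1 = true := by decide +kernel

theorem c_66_5 : chunkOK 66 5 = true := by decide +kernel

theorem c_67_5 : chunkOK 67 5 = true := by decide +kernel

theorem c_67_8 : chunkOK 67 8 = true := by decide +kernel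

theorem c_68_0 : chunkOK 68 0 = true := by decide +kernel

theorem c_74_2 : chunkOK 74 2 = true := by decide +kernel

theorem c_77_2 : chunkOK 77 2 = true := by decide +kernel

theorem c_82_1 : chunkOK 82 1 = true := by decide +kernel

theorem c_87_1 : chunkOK 87 1 = true := by decide +kernel

end Vale.Agent.P047.D4
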