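import Vale.Agent.P047.D4.Chunk

set_option maxRecDepth 100000

namespace Vale.Agent.P047.D4

theorem c_25_0 : chunkOK 25 0 = true := by decide +kernel

theorem c_26_0 : chunkOK 26 0 = true := by decide +kernel

theorem c_39_1 : chunkOK 39 1 = true := by decide +kernel

theorem c_47_1 : chunkOK 47 1 = true := by decide +kernel

theorem c_47_3 : chunkOK 47 3 = true := by decide +kernel

theorem c_56_2 : chunkOK 56 2 = true := by decide +kernel

theorem c_58_4 : chunkOK 58 4 = true := by decide +kernel

theorem c_60_6 : chunkOK 60 6 = true := by decide +kernel

theorem c_65_0 : chunkOK 65 0 = true := by decide +kernel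

theorem c_66_4 : chunkOK 66 4 = true := by decide +kernel

theorem c_67_4 : chunkOK 67 4 = true := by decide +kernel

theorem c_69_7 : chunkOK 69 7 = true := by decide +kernel

theorem c_70_7 : chunkOK 70 7 = true := by decide +kernel

theorem c_72_5 : chunkOK 72 5 = true := by decide +kernel

theorem c_75_5 : chunkOK 75 5 = true := by decide +kernel

theorem c_76_4 : chunkOK 76 4 = true := by decide +kernel

theorem c_79_1 : chunkOK 79 1 = true := by decide +kernel

end Vale.Agent.P047.D4
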