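import Vale.Agent.P047.D4.Chunk

set_option maxRecDepth 100000

namespace Vale.Agent.P047.D4

theorem c_31_0 : chunkOK 31 0 = true := by decide +kernel

theorem c_47_0 : chunkOK 47 0 = true := by decide +kernel

theorem c_53_5 : chunkOK 53 5 = true := by decide +kernel

theorem c_56_1 : chunkOK 56 1 = true := by decide +kernel

theorem c_58_3 : chunkOK 58 3 = true := by decide +kernel

theorem c_58_7 : chunkOK 58 7 = true := by decide +kernel

theorem c_59_7 : chunkOK 59 7 = true := by decide +kernel

theorem c_60_5 : chunkOK 60 5 = true := by decide +kernel

theorem c_64_7 : chunkOK 64 7 = true := by decide +kernel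

theorem c_66_3 : chunkOK 66 3 = true := by decide +kernel

theorem c_67_3 : chunkOK 67 3 = true := by decide +kernel

theorem c_72_4 : chunkOK 72 4 = true := by decide +kernel

theorem c_76_3 : chunkOK 76 3 = true := by decide +kernel

theorem c_79_0 : chunkOK 79 0 = true := by decide +kernel

theorem c_97_0 : chunkOK 97 0 = true := by decide +kernel

end Vale.Agent.P047.D4
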