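import Vale.Agent.P047.D4.Chunk

set_option maxRecDepth 100000

namespace Vale.Agent.P047.D4

theorem c_40_1 : chunkOK 40 1 = true := by decide +kernel

theorem c_48_3 : chunkOK 48 3 = true := by decide +kernel

theorem c_56_0 : chunkOK 56 0 = true := by decide +kernel

theorem c_58_2 : chunkOK 58 2 = true := by decide +kernel

theorem c_60_4 : chunkOK 60 4 = true := by decide +kernel

theorem c_64_6 : chunkOK 64 6 = true := by decide +kernel

theorem c_66_2 : chunkOK 66 2 = true := by decide +kernel

theorem c_67_2 : chunkOK 67 2 = true := by decide +kernel

theorem c_72_3 : chunkOK 72 3 = true := by decide +kernel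

theorem c_76_2 : chunkOK 76 2 = true := by decide +kernel

theorem c_78_1 : chunkOK 78 1 = true := by decide +kernel

theorem c_78_2 : chunkOK 78 2 = true := by decide +kernel

theorem c_81_0 : chunkOK 81 0 = true := by decide +kernel

theorem c_91_0 : chunkOK 91 0 = true := by decide +kernel

end Vale.Agent.P047.D4
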