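import Vale.Agent.P047.D4.ChkH0
import Vale.Agent.P047.D4.ChkH1
import Vale.Agent.P047.D4.ChkH2
import Vale.Agent.P047.D4.ChkH3
import Vale.Agent.P047.D4.ChkH4
import Vale.Agent.P047.D4.ChkH5
import Vale.Agent.P047.D4.ChkH6
import Vale.Agent.P047.D4.ChkH7
import Vale.Agent.P047.D4.ChkH8
import Vale.Agent.P047.D4.ChkH9
import Vale.Agent.P047.D4.ChkH10
import Vale.Agent.P047.D4.ChkH11
import Vale.Agent.P047.D4.ChkH12
import Vale.Agent.P047.D4.ChkH13
import Vale.Agent.P047.D4.ChkH14
import Vale.Agent.P047.D4.ChkH15
import Vale.Agent.P047.D4.ChkH16
import Vale.Agent.P047.D4.ChkH17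
import Vale.Agent.P047.D4.ChkH18
import Vale.Agent.P047.D4.ChkH19
import Vale.Agent.P047.D4.ChkA

namespace Vale.Agent.P047.D4

theorem grp_ok_0 : checkGroup tree (grp groups 0) = true :=
  checkGroup_of_chunks 0 0 (by decide +kernel) (by
    intro j hj
    omega)

theorem grp_ok_1 : checkGroup tree (grp groups 1) = true :=
  checkGroup_of_chunks 1 0 (by decide +kernel) (by
    intro j hj
    omega)

theorem grp_ok_2 : checkGroup tree (grp groups 2) = true :=
  checkGroup_of_chunks 2 0 (by decide +kernel) (by
    intro j hj
    omega)

theorem grp_ok_3 : checkGroup tree (grp groups 3) = true :=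
  checkGroup_of_chunks 3 0 (by decide +kernel) (by
    intro j hj
    omega)

theorem grp_ok_4 : checkGroup tree (grp groups 4) = true :=
  checkGroup_of_chunks 4 0 (by decide +kernel) (by
    intro j hj
    omega)

theorem grp_ok_5 : checkGroup tree (grp groups 5) = true :=
  checkGroup_of_chunks 5 0 (by decide +kernel) (by
    intro j hj
    omega)

theorem grp_ok_6 : checkGroup tree (grp groups 6) = true :=
  checkGroup_of_chunks 6 0 (by decide +kernel) (by
    intro j hj
    omega)

theorem grp_ok_7 : checkGroup tree (grp groups 7) = true :=
  checkGroup_of_chunks 7 0 (by decide +kernel) (by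
    intro j hj
    omega)

theorem grp_ok_8 : checkGroup tree (grp groups 8) = true :=
  checkGroup_of_chunks 8 0 (by decide +kernel) (by
    intro j hj
    omega)

theorem grp_ok_9 : checkGroup tree (grp groups 9) = true :=
  checkGroup_of_chunks 9 0 (by decide +kernel) (by
    intro j hj
    omega)

theorem grp_ok_10 : checkGroup tree (grp groups 10) = true :=
  checkGroup_of_chunks 10 0 (by decide +kernel) (by
    intro j hj
    omega)

theorem grp_ok_11 : checkGroup tree (grp groups 11) = true :=
  checkGroup_of_chunks 11 0 (by decide +kernel) (by
    intro j hj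
    omega)

theorem grp_ok_12 : checkGroup tree (grp groups 12) = true :=
  checkGroup_of_chunks 12 0 (by decide +kernel) (by
    intro j hj
    omega)

theorem grp_ok_13 : checkGroup tree (grp groups 13) = true :=
  checkGroup_of_chunks 13 0 (by decide +kernel) (by
    intro j hj
    omega)

theorem grp_ok_14 : checkGroup tree (grp groups 14) = true :=
  checkGroup_of_chunks 14 0 (by decide +kernel) (by
    intro j hj
    omega)

theorem grp_ok_15 : checkGroup tree (grp groups 15) = true :=
  checkGroup_of_chunks 15 0 (by decide +kernel) (by
    intro j hj
    omega)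

theorem grp_ok_16 : checkGroup tree (grp groups 16) = true :=
  checkGroup_of_chunks 16 0 (by decide +kernel) (by
    intro j hj
    omega)

theorem grp_ok_17 : checkGroup tree (grp groups 17) = true :=
  checkGroup_of_chunks 17 0 (by decide +kernel) (by
    intro j hj
    omega)

theorem grp_ok_18 : checkGroup tree (grp groups 18) = true :=
  checkGroup_of_chunks 18 0 (by decide +kernel) (by
    intro j hj
    omega)

theorem grp_ok_19 : checkGroup tree (grp groups 19) = true :=
  checkGroup_of_chunks 19 0 (by decide +kernel) (by
    intro j hj
    omega)

theorem grp_ok_20 : checkGroup tree (grp groups 20) = true :=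
  checkGroup_of_chunks 20 0 (by decide +kernel) (by
    intro j hj
    omega)

theorem grp_ok_21 : checkGroup tree (grp groups 21) = true :=
  checkGroup_of_chunks 21 0 (by decide +kernel) (by
    intro j hj
    omega)

theorem grp_ok_22 : checkGroup tree (grp groups 22) = true :=
  checkGroup_of_chunks 22 0 (by decide +kernel) (by
    intro j hj
    omega)

theorem grp_ok_23 : checkGroup tree (grp groups 23) = true :=
  checkGroup_of_chunks 23 0 (by decide +kernel) (by
    intro j hj
    omega)

theorem grp_ok_24 : checkGroup tree (grp groups 24) = true :=
  checkGroup_of_chunks 24 1 (by decide +kernel) (by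
    intro j hj
    interval_cases j
    · exact c_24_0)

theorem grp_ok_25 : checkGroup tree (grp groups 25) = true :=
  checkGroup_of_chunks 25 1 (by decide +kernel) (by
    intro j hj
    interval_cases j
    · exact c_25_0)

theorem grp_ok_26 : checkGroup tree (grp groups 26) = true :=
  checkGroup_of_chunks 26 1 (by decide +kernel) (by
    intro j hj
    interval_cases j
    · exact c_26_0)

theorem grp_ok_27 : checkGroup tree (grp groups 27) = true :=
  checkGroup_of_chunks 27 1 (by decide +kernel) (by
    intro j hj
    interval_cases j
    · exact c_27_0)

theorem grp_ok_28 : checkGroup tree (grp groups 28) = true :=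
  checkGroup_of_chunks 28 1 (by decide +kernel) (by
    intro j hj
    interval_cases j
    · exact c_28_0)

theorem grp_ok_29 : checkGroup tree (grp groups 29) = true :=
  checkGroup_of_chunks 29 1 (by decide +kernel) (by
    intro j hj
    interval_cases j
    · exact c_29_0)

theorem grp_ok_30 : checkGroup tree (grp groups 30) = true :=
  checkGroup_of_chunks 30 1 (by decide +kernel) (by
    intro j hj
    interval_cases j
    · exact c_30_0)

theorem grp_ok_31 : checkGroup tree (grp groups 31) = true :=
  checkGroup_of_chunks 31 1 (by decide +kernel) (by
    intro j hj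
    interval_cases j
    · exact c_31_0)

theorem grp_ok_32 : checkGroup tree (grp groups 32) = true :=
  checkGroup_of_chunks 32 1 (by decide +kernel) (by
    intro j hj
    interval_cases j
    · exact c_32_0)

theorem grp_ok_33 : checkGroup tree (grp groups 33) = true :=
  checkGroup_of_chunks 33 1 (by decide +kernel) (by
    intro j hj
    interval_cases j
    · exact c_33_0)

theorem grp_ok_34 : checkGroup tree (grp groups 34) = true :=
  checkGroup_of_chunks 34 1 (by decide +kernel) (by
    intro j hj
    interval_cases j
    · exact c_34_0)

theorem grp_ok_35 : checkGroup tree (grp groups 35) = true :=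
  checkGroup_of_chunks 35 1 (by decide +kernel) (by
    intro j hj
    interval_cases j
    · exact c_35_0)

theorem grp_ok_36 : checkGroup tree (grp groups 36) = true :=
  checkGroup_of_chunks 36 1 (by decide +kernel) (by
    intro j hj
    interval_cases j
    · exact c_36_0)

theorem grp_ok_37 : checkGroup tree (grp groups 37) = true :=
  checkGroup_of_chunks 37 1 (by decide +kernel) (by
    intro j hj
    interval_cases j
    · exact c_37_0)

theorem grp_ok_38 : checkGroup tree (grp groups 38) = true :=
  checkGroup_of_chunks 38 1 (by decide +kernel) (by
    intro j hj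
    interval_cases j
    · exact c_38_0)

theorem grp_ok_39 : checkGroup tree (grp groups 39) = true :=
  checkGroup_of_chunks 39 2 (by decide +kernel) (by
    intro j hj
    interval_cases j
    · exact c_39_0
    · exact c_39_1)

theorem grp_ok_40 : checkGroup tree (grp groups 40) = true :=
  checkGroup_of_chunks 40 2 (by decide +kernel) (by
    intro j hj
    interval_cases j
    · exact c_40_0
    · exact c_40_1)

theorem grp_ok_41 : checkGroup tree (grp groups 41) = true :=
  checkGroup_of_chunks 41 2 (by decide +kernel) (by
    intro j hj
    interval_cases j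
    · exact c_41_0
    · exact c_41_1)

theorem grp_ok_42 : checkGroup tree (grp groups 42) = true :=
  checkGroup_of_chunks 42 2 (by decide +kernel) (by
    intro j hj
    interval_cases j
    · exact c_42_0
    · exact c_42_1)

theorem grp_ok_43 : checkGroup tree (grp groups 43) = true :=
  checkGroup_of_chunks 43 2 (by decide +kernel) (by
    intro j hj
    interval_cases j
    · exact c_43_0
    · exact c_43_1)

theorem grp_ok_44 : checkGroup tree (grp groups 44) = true :=
  checkGroup_of_chunks 44 3 (by decide +kernel) (by
    intro j hj
    interval_cases j
    · exact c_44_0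
    · exact c_44_1
    · exact c_44_2)

theorem grp_ok_45 : checkGroup tree (grp groups 45) = true :=
  checkGroup_of_chunks 45 3 (by decide +kernel) (by
    intro j hj
    interval_cases j
    · exact c_45_0
    · exact c_45_1
    · exact c_45_2)

theorem grp_ok_46 : checkGroup tree (grp groups 46) = true :=
  checkGroup_of_chunks 46 3 (by decide +kernel) (by
    intro j hj
    interval_cases j
    · exact c_46_0
    · exact c_46_1
    · exact c_46_2)

theorem grp_ok_47 : checkGroup tree (grp groups 47) = true :=
  checkGroup_of_chunks 47 4 (by decide +kernel) (by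
    intro j hj
    interval_cases j
    · exact c_47_0
    · exact c_47_1
    · exact c_47_2
    · exact c_47_3)

theorem grp_ok_48 : checkGroup tree (grp groups 48) = true :=
  checkGroup_of_chunks 48 4 (by decide +kernel) (by
    intro j hj
    interval_cases j
    · exact c_48_0
    · exact c_48_1
    · exact c_48_2
    · exact c_48_3)

theorem grp_ok_49 : checkGroup tree (grp groups 49) = true :=
  checkGroup_of_chunks 49 4 (by decide +kernel) (by
    intro j hj
    interval_cases j
    · exact c_49_0
    · exact c_49_1
    · exact c_49_2
    · exact c_49_3)

theorem grp_ok_50 : checkGroup tree (grp groups 50) = true :=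
  checkGroup_of_chunks 50 4 (by decide +kernel) (by
    intro j hj
    interval_cases j
    · exact c_50_0
    · exact c_50_1
    · exact c_50_2
    · exact c_50_3)

theorem grp_ok_51 : checkGroup tree (grp groups 51) = true :=
  checkGroup_of_chunks 51 5 (by decide +kernel) (by
    intro j hj
    interval_cases j
    · exact c_51_0
    · exact c_51_1
    · exact c_51_2
    · exact c_51_3
    · exact c_51_4)

theorem grp_ok_52 : checkGroup tree (grp groups 52) = true :=
  checkGroup_of_chunks 52 6 (by decide +kernel) (by
    intro j hj
    interval_cases j
    · exact c_52_0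
    · exact c_52_1
    · exact c_52_2
    · exact c_52_3
    · exact c_52_4
    · exact c_52_5)

theorem grp_ok_53 : checkGroup tree (grp groups 53) = true :=
  checkGroup_of_chunks 53 6 (by decide +kernel) (by
    intro j hj
    interval_cases j
    · exact c_53_0
    · exact c_53_1
    · exact c_53_2
    · exact c_53_3
    · exact c_53_4
    · exact c_53_5)

theorem grp_ok_54 : checkGroup tree (grp groups 54) = true :=
  checkGroup_of_chunks 54 6 (by decide +kernel) (by
    intro j hj
    interval_cases j
    · exact c_54_0
    · exact c_54_1
    · exact c_54_2
    · exact c_54_3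
    · exact c_54_4
    · exact c_54_5)

theorem grp_ok_55 : checkGroup tree (grp groups 55) = true :=
  checkGroup_of_chunks 55 6 (by decide +kernel) (by
    intro j hj
    interval_cases j
    · exact c_55_0
    · exact c_55_1
    · exact c_55_2
    · exact c_55_3
    · exact c_55_4
    · exact c_55_5)

theorem grp_ok_56 : checkGroup tree (grp groups 56) = true :=
  checkGroup_of_chunks 56 7 (by decide +kernel) (by
    intro j hj
    interval_cases j
    · exact c_56_0
    · exact c_56_1
    · exact c_56_2
    · exact c_56_3
    · exact c_56_4
    · exact c_56_5
    · exact c_56_6)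

theorem grp_ok_57 : checkGroup tree (grp groups 57) = true :=
  checkGroup_of_chunks 57 7 (by decide +kernel) (by
    intro j hj
    interval_cases j
    · exact c_57_0
    · exact c_57_1
    · exact c_57_2
    · exact c_57_3
    · exact c_57_4
    · exact c_57_5
    · exact c_57_6)

theorem grp_ok_58 : checkGroup tree (grp groups 58) = true :=
  checkGroup_of_chunks 58 8 (by decide +kernel) (by
    intro j hj
    interval_cases j
    · exact c_58_0
    · exact c_58_1
    · exact c_58_2
    · exact c_58_3
    · exact c_58_4
    · exact c_58_5
    · exact c_58_6
    · exact c_58_7)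

theorem grp_ok_59 : checkGroup tree (grp groups 59) = true :=
  checkGroup_of_chunks 59 8 (by decide +kernel) (by
    intro j hj
    interval_cases j
    · exact c_59_0
    · exact c_59_1
    · exact c_59_2
    · exact c_59_3
    · exact c_59_4
    · exact c_59_5
    · exact c_59_6
    · exact c_59_7)

theorem grp_ok_60 : checkGroup tree (grp groups 60) = true :=
  checkGroup_of_chunks 60 8 (by decide +kernel) (by
    intro j hj
    interval_cases j
    · exact c_60_0
    · exact c_60_1
    · exact c_60_2
    · exact c_60_3
    · exact c_60_4
    · exact c_60_5
    · exact c_60_6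
    · exact c_60_7)

theorem grp_ok_61 : checkGroup tree (grp groups 61) = true :=
  checkGroup_of_chunks 61 9 (by decide +kernel) (by
    intro j hj
    interval_cases j
    · exact c_61_0
    · exact c_61_1
    · exact c_61_2
    · exact c_61_3
    · exact c_61_4
    · exact c_61_5
    · exact c_61_6
    · exact c_61_7
    · exact c_61_8)

theorem grp_ok_62 : checkGroup tree (grp groups 62) = true :=
  checkGroup_of_chunks 62 9 (by decide +kernel) (by
    intro j hj
    interval_cases j
    · exact c_62_0
    · exact c_62_1
    · exact c_62_2
    · exact c_62_3
    · exact c_62_4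
    · exact c_62_5
    · exact c_62_6
    · exact c_62_7
    · exact c_62_8)

theorem grp_ok_63 : checkGroup tree (grp groups 63) = true :=
  checkGroup_of_chunks 63 9 (by decide +kernel) (by
    intro j hj
    interval_cases j
    · exact c_63_0
    · exact c_63_1
    · exact c_63_2
    · exact c_63_3
    · exact c_63_4
    · exact c_63_5
    · exact c_63_6
    · exact c_63_7
    · exact c_63_8)

theorem grp_ok_64 : checkGroup tree (grp groups 64) = true :=
  checkGroup_of_chunks 64 9 (by decide +kernel) (by
    intro j hj
    interval_cases j
    · exact c_64_0
    · exact c_64_1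
    · exact c_64_2
    · exact c_64_3
    · exact c_64_4
    · exact c_64_5
    · exact c_64_6
    · exact c_64_7
    · exact c_64_8)

theorem grp_ok_65 : checkGroup tree (grp groups 65) = true :=
  checkGroup_of_chunks 65 9 (by decide +kernel) (by
    intro j hj
    interval_cases j
    · exact c_65_0
    · exact c_65_1
    · exact c_65_2
    · exact c_65_3
    · exact c_65_4
    · exact c_65_5
    · exact c_65_6
    · exact c_65_7
    · exact c_65_8)

theorem grp_ok_66 : checkGroup tree (grp groups 66) = true :=
  checkGroup_of_chunks 66 9 (by decide +kernel) (by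
    intro j hj
    interval_cases j
    · exact c_66_0
    · exact c_66_1
    · exact c_66_2
    · exact c_66_3
    · exact c_66_4
    · exact c_66_5
    · exact c_66_6
    · exact c_66_7
    · exact c_66_8)

theorem grp_ok_67 : checkGroup tree (grp groups 67) = true :=
  checkGroup_of_chunks 67 9 (by decide +kernel) (by
    intro j hj
    interval_cases j
    · exact c_67_0
    · exact c_67_1
    · exact c_67_2
    · exact c_67_3
    · exact c_67_4
    · exact c_67_5
    · exact c_67_6
    · exact c_67_7
    · exact c_67_8)

theorem grp_ok_68 : checkGroup tree (grp groups 68) = true :=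
  checkGroup_of_chunks 68 8 (by decide +kernel) (by
    intro j hj
    interval_cases j
    · exact c_68_0
    · exact c_68_1
    · exact c_68_2
    · exact c_68_3
    · exact c_68_4
    · exact c_68_5
    · exact c_68_6
    · exact c_68_7)

theorem grp_ok_69 : checkGroup tree (grp groups 69) = true :=
  checkGroup_of_chunks 69 8 (by decide +kernel) (by
    intro j hj
    interval_cases j
    · exact c_69_0
    · exact c_69_1
    · exact c_69_2
    · exact c_69_3
    · exact c_69_4
    · exact c_69_5
    · exact c_69_6
    · exact c_69_7)

theorem grp_ok_70 : checkGroup tree (grp groups 70) = true :=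
  checkGroup_of_chunks 70 8 (by decide +kernel) (by
    intro j hj
    interval_cases j
    · exact c_70_0
    · exact c_70_1
    · exact c_70_2
    · exact c_70_3
    · exact c_70_4
    · exact c_70_5
    · exact c_70_6
    · exact c_70_7)

theorem grp_ok_71 : checkGroup tree (grp groups 71) = true :=
  checkGroup_of_chunks 71 7 (by decide +kernel) (by
    intro j hj
    interval_cases j
    · exact c_71_0
    · exact c_71_1
    · exact c_71_2
    · exact c_71_3
    · exact c_71_4
    · exact c_71_5
    · exact c_71_6)

theorem grp_ok_72 : checkGroup tree (grp groups 72) = true :=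
  checkGroup_of_chunks 72 7 (by decide +kernel) (by
    intro j hj
    interval_cases j
    · exact c_72_0
    · exact c_72_1
    · exact c_72_2
    · exact c_72_3
    · exact c_72_4
    · exact c_72_5
    · exact c_72_6)

theorem grp_ok_73 : checkGroup tree (grp groups 73) = true :=
  checkGroup_of_chunks 73 6 (by decide +kernel) (by
    intro j hj
    interval_cases j
    · exact c_73_0
    · exact c_73_1
    · exact c_73_2
    · exact c_73_3
    · exact c_73_4
    · exact c_73_5)

theorem grp_ok_74 : checkGroup tree (grp groups 74) = true :=
  checkGroup_of_chunks 74 6 (by decide +kernel) (by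
    intro j hj
    interval_cases j
    · exact c_74_0
    · exact c_74_1
    · exact c_74_2
    · exact c_74_3
    · exact c_74_4
    · exact c_74_5)

theorem grp_ok_75 : checkGroup tree (grp groups 75) = true :=
  checkGroup_of_chunks 75 6 (by decide +kernel) (by
    intro j hj
    interval_cases j
    · exact c_75_0
    · exact c_75_1
    · exact c_75_2
    · exact c_75_3
    · exact c_75_4
    · exact c_75_5)

theorem grp_ok_76 : checkGroup tree (grp groups 76) = true :=
  checkGroup_of_chunks 76 6 (by decide +kernel) (by
    intro j hj
    interval_cases j
    · exact c_76_0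
    · exact c_76_1
    · exact c_76_2
    · exact c_76_3
    · exact c_76_4
    · exact c_76_5)

theorem grp_ok_77 : checkGroup tree (grp groups 77) = true :=
  checkGroup_of_chunks 77 5 (by decide +kernel) (by
    intro j hj
    interval_cases j
    · exact c_77_0
    · exact c_77_1
    · exact c_77_2
    · exact c_77_3
    · exact c_77_4)

theorem grp_ok_78 : checkGroup tree (grp groups 78) = true :=
  checkGroup_of_chunks 78 4 (by decide +kernel) (by
    intro j hj
    interval_cases j
    · exact c_78_0
    · exact c_78_1
    · exact c_78_2
    · exact c_78_3)

theorem grp_ok_79 : checkGroup tree (grp groups 79) = true :=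
  checkGroup_of_chunks 79 4 (by decide +kernel) (by
    intro j hj
    interval_cases j
    · exact c_79_0
    · exact c_79_1
    · exact c_79_2
    · exact c_79_3)

theorem grp_ok_80 : checkGroup tree (grp groups 80) = true :=
  checkGroup_of_chunks 80 4 (by decide +kernel) (by
    intro j hj
    interval_cases j
    · exact c_80_0
    · exact c_80_1
    · exact c_80_2
    · exact c_80_3)

theorem grp_ok_81 : checkGroup tree (grp groups 81) = true :=
  checkGroup_of_chunks 81 4 (by decide +kernel) (by
    intro j hj
    interval_cases j
    · exact c_81_0
    · exact c_81_1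
    · exact c_81_2
    · exact c_81_3)

theorem grp_ok_82 : checkGroup tree (grp groups 82) = true :=
  checkGroup_of_chunks 82 3 (by decide +kernel) (by
    intro j hj
    interval_cases j
    · exact c_82_0
    · exact c_82_1
    · exact c_82_2)

theorem grp_ok_83 : checkGroup tree (grp groups 83) = true :=
  checkGroup_of_chunks 83 3 (by decide +kernel) (by
    intro j hj
    interval_cases j
    · exact c_83_0
    · exact c_83_1
    · exact c_83_2)

theorem grp_ok_84 : checkGroup tree (grp groups 84) = true :=
  checkGroup_of_chunks 84 3 (by decide +kernel) (by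
    intro j hj
    interval_cases j
    · exact c_84_0
    · exact c_84_1
    · exact c_84_2)

theorem grp_ok_85 : checkGroup tree (grp groups 85) = true :=
  checkGroup_of_chunks 85 2 (by decide +kernel) (by
    intro j hj
    interval_cases j
    · exact c_85_0
    · exact c_85_1)

theorem grp_ok_86 : checkGroup tree (grp groups 86) = true :=
  checkGroup_of_chunks 86 2 (by decide +kernel) (by
    intro j hj
    interval_cases j
    · exact c_86_0
    · exact c_86_1)

theorem grp_ok_87 : checkGroup tree (grp groups 87) = true :=
  checkGroup_of_chunks 87 2 (by decide +kernel) (by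
    intro j hj
    interval_cases j
    · exact c_87_0
    · exact c_87_1)

theorem grp_ok_88 : checkGroup tree (grp groups 88) = true :=
  checkGroup_of_chunks 88 2 (by decide +kernel) (by
    intro j hj
    interval_cases j
    · exact c_88_0
    · exact c_88_1)

theorem grp_ok_89 : checkGroup tree (grp groups 89) = true :=
  checkGroup_of_chunks 89 2 (by decide +kernel) (by
    intro j hj
    interval_cases j
    · exact c_89_0
    · exact c_89_1)

theorem grp_ok_90 : checkGroup tree (grp groups 90) = true :=
  checkGroup_of_chunks 90 1 (by decide +kernel) (by
    intro j hj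
    interval_cases j
    · exact c_90_0)

theorem grp_ok_91 : checkGroup tree (grp groups 91) = true :=
  checkGroup_of_chunks 91 1 (by decide +kernel) (by
    intro j hj
    interval_cases j
    · exact c_91_0)

theorem grp_ok_92 : checkGroup tree (grp groups 92) = true :=
  checkGroup_of_chunks 92 1 (by decide +kernel) (by
    intro j hj
    interval_cases j
    · exact c_92_0)

theorem grp_ok_93 : checkGroup tree (grp groups 93) = true :=
  checkGroup_of_chunks 93 1 (by decide +kernel) (by
    intro j hj
    interval_cases j
    · exact c_93_0)

theorem grp_ok_94 : checkGroup tree (grp groups 94) = true :=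
  checkGroup_of_chunks 94 1 (by decide +kernel) (by
    intro j hj
    interval_cases j
    · exact c_94_0)

theorem grp_ok_95 : checkGroup tree (grp groups 95) = true :=
  checkGroup_of_chunks 95 1 (by decide +kernel) (by
    intro j hj
    interval_cases j
    · exact c_95_0)

theorem grp_ok_96 : checkGroup tree (grp groups 96) = true :=
  checkGroup_of_chunks 96 1 (by decide +kernel) (by
    intro j hj
    interval_cases j
    · exact c_96_0)

theorem grp_ok_97 : checkGroup tree (grp groups 97) = true :=
  checkGroup_of_chunks 97 1 (by decide +kernel) (by
    intro j hj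
    interval_cases j
    · exact c_97_0)

theorem grp_ok_98 : checkGroup tree (grp groups 98) = true :=
  checkGroup_of_chunks 98 1 (by decide +kernel) (by
    intro j hj
    interval_cases j
    · exact c_98_0)

theorem grp_ok_99 : checkGroup tree (grp groups 99) = true :=
  checkGroup_of_chunks 99 1 (by decide +kernel) (by
    intro j hj
    interval_cases j
    · exact c_99_0)

theorem grp_ok_100 : checkGroup tree (grp groups 100) = true :=
  checkGroup_of_chunks 100 1 (by decide +kernel) (by
    intro j hj
    interval_cases j
    · exact c_100_0)

theorem grp_ok_101 : checkGroup tree (grp groups 101) = true :=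
  checkGroup_of_chunks 101 1 (by decide +kernel) (by
    intro j hj
    interval_cases j
    · exact c_101_0)

theorem grp_ok_102 : checkGroup tree (grp groups 102) = true :=
  checkGroup_of_chunks 102 1 (by decide +kernel) (by
    intro j hj
    interval_cases j
    · exact c_102_0)

theorem grp_ok_103 : checkGroup tree (grp groups 103) = true :=
  checkGroup_of_chunks 103 1 (by decide +kernel) (by
    intro j hj
    interval_cases j
    · exact c_103_0)

theorem grp_ok_104 : checkGroup tree (grp groups 104) = true :=
  checkGroup_of_chunks 104 1 (by decide +kernel) (by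
    intro j hj
    interval_cases j
    · exact c_104_0)

theorem groups_ok_lt (a : Nat) (h : a < 105) : checkGroup tree (grp groups a) = true := by
  interval_cases a
  · exact grp_ok_0
  · exact grp_ok_1
  · exact grp_ok_2
  · exact grp_ok_3
  · exact grp_ok_4
  · exact grp_ok_5
  · exact grp_ok_6
  · exact grp_ok_7
  · exact grp_ok_8
  · exact grp_ok_9
  · exact grp_ok_10
  · exact grp_ok_11
  · exact grp_ok_12
  · exact grp_ok_13
  · exact grp_ok_14
  · exact grp_ok_15
  · exact grp_ok_16
  · exact grp_ok_17
  · exact grp_ok_18
  · exact grp_ok_19
  · exact grp_ok_20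
  · exact grp_ok_21
  · exact grp_ok_22
  · exact grp_ok_23
  · exact grp_ok_24
  · exact grp_ok_25
  · exact grp_ok_26
  · exact grp_ok_27
  · exact grp_ok_28
  · exact grp_ok_29
  · exact grp_ok_30
  · exact grp_ok_31
  · exact grp_ok_32
  · exact grp_ok_33
  · exact grp_ok_34
  · exact grp_ok_35
  · exact grp_ok_36
  · exact grp_ok_37
  · exact grp_ok_38
  · exact grp_ok_39
  · exact grp_ok_40
  · exact grp_ok_41
  · exact grp_ok_42
  · exact grp_ok_43
  · exact grp_ok_44
  · exact grp_ok_45
  · exact grp_ok_46
  · exact grp_ok_47
  · exact grp_ok_48
  · exact grp_ok_49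
  · exact grp_ok_50
  · exact grp_ok_51
  · exact grp_ok_52
  · exact grp_ok_53
  · exact grp_ok_54
  · exact grp_ok_55
  · exact grp_ok_56
  · exact grp_ok_57
  · exact grp_ok_58
  · exact grp_ok_59
  · exact grp_ok_60
  · exact grp_ok_61
  · exact grp_ok_62
  · exact grp_ok_63
  · exact grp_ok_64
  · exact grp_ok_65
  · exact grp_ok_66
  · exact grp_ok_67
  · exact grp_ok_68
  · exact grp_ok_69
  · exact grp_ok_70
  · exact grp_ok_71
  · exact grp_ok_72
  · exact grp_ok_73
  · exact grp_ok_74
  · exact grp_ok_75
  · exact grp_ok_76
  · exact grp_ok_77
  · exact grp_ok_78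
  · exact grp_ok_79
  · exact grp_ok_80
  · exact grp_ok_81
  · exact grp_ok_82
  · exact grp_ok_83
  · exact grp_ok_84
  · exact grp_ok_85
  · exact grp_ok_86
  · exact grp_ok_87
  · exact grp_ok_88
  · exact grp_ok_89
  · exact grp_ok_90
  · exact grp_ok_91
  · exact grp_ok_92
  · exact grp_ok_93
  · exact grp_ok_94
  · exact grp_ok_95
  · exact grp_ok_96
  · exact grp_ok_97
  · exact grp_ok_98
  · exact grp_ok_99
  · exact grp_ok_100
  · exact grp_ok_101
  · exact grp_ok_102
  · exact grp_ok_103
  · exact grp_ok_104

end Vale.Agent.P047.D4
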