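import Vale.Agent.P047.D4.Chunk

set_option maxRecDepth 100000

namespace Vale.Agent.P047.D4

theorem c_45_2 : chunkOK 45 2 = true := by decide +kernel

theorem c_49_0 : chunkOK 49 0 = true := by decide +kernel

theorem c_52_4 : chunkOK 52 4 = true := by decide +kernel

theorem c_55_3 : chunkOK 55 3 = true := by decide +kernel

theorem c_63_3 : chunkOK 63 3 = true := by decide +kernel

theorem c_65_7 : chunkOK 65 7 = true := by decide +kernel

theorem c_68_6 : chunkOK 68 6 = true := by decide +kernel

theorem c_69_0 : chunkOK 69 0 = true := by decide +kernel

theorem c_70_4 : chunkOK 70 4 = true := by decide +kernel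

theorem c_71_0 : chunkOK 71 0 = true := by decide +kernel

theorem c_72_6 : chunkOK 72 6 = true := by decide +kernel

theorem c_75_2 : chunkOK 75 2 = true := by decide +kernel

theorem c_86_0 : chunkOK 86 0 = true := by decide +kernel

theorem c_94_0 : chunkOK 94 0 = true := by decide +kernel

end Vale.Agent.P047.D4
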