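import Vale.Agent.P047.D4.Chunk

set_option maxRecDepth 100000

namespace Vale.Agent.P047.D4

theorem c_41_0 : chunkOK 41 0 = true := by decide +kernel

theorem c_46_0 : chunkOK 46 0 = true := by decide +kernel

theorem c_49_1 : chunkOK 49 1 = true := by decide +kernel

theorem c_55_4 : chunkOK 55 4 = true := by decide +kernel

theorem c_59_0 : chunkOK 59 0 = true := by decide +kernel

theorem c_61_2 : chunkOK 61 2 = true := by decide +kernel

theorem c_61_8 : chunkOK 61 8 = true := by decide +kernel

theorem c_62_2 : chunkOK 62 2 = true := by decide +kernel

theorem c_63_6 : chunkOK 63 6 = true := by decide +kernel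

theorem c_69_3 : chunkOK 69 3 = true := by decide +kernel

theorem c_71_1 : chunkOK 71 1 = true := by decide +kernel

theorem c_75_3 : chunkOK 75 3 = true := by decide +kernel

theorem c_76_0 : chunkOK 76 0 = true := by decide +kernel

theorem c_83_2 : chunkOK 83 2 = true := by decide +kernel

end Vale.Agent.P047.D4
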