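import Vale.Agent.P047.D4.Data

/-! The group checks are cut into chunks of rows, to keep every kernel computation small. -/

namespace Vale.Agent.P047.D4

def checkFrom (t : KT) (g rows : List Nat) : Bool := rows.all (fun K1 => g.all (fun K2 => pairOK t K1 K2))

def chunkOK (a j : Nat) : Bool := checkFrom tree (grp groups a) (((grp groups a).drop (16 * j)).take 16)

theorem checkGroup_of_chunks (a m : Nat) (hlen : (grp groups a).length ≤ 16 * m)
    (h : ∀ j, j < m → chunkOK a j = true) : checkGroup tree (grp groups a) = true := by
  unfold checkGroup
  rw [List.all_eq_true]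
  intro K1 hK1
  obtain ⟨i, hi, rfl⟩ := List.mem_iff_getElem.mp hK1
  have hj : i / 16 < m := by omega
  have h1 := h (i / 16) hj
  unfold chunkOK checkFrom at h1
  rw [List.all_eq_true] at h1
  apply h1
  rw [List.mem_iff_getElem]
  refine ⟨i % 16, ?_, ?_⟩
  · rw [List.length_take, List.length_drop]
    omega
  · rw [List.getElem_take, List.getElem_drop]
    congr 1
    omega

end Vale.Agent.P047.D4
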