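import Vale.Agent.P047.D4.Psi
import Vale.Agent.P047.D4.Data

/-! Every 0/1 valued function of degree <= 4 has its bias polynomial in the finite set coded by `tree`. -/

namespace Vale.Agent.P047.D4

open Polynomial Finset Vale.Agent.P047

noncomputable def cf0 (K : Nat) : ℝ := (d0 K : ℝ)
noncomputable def cf1 (K : Nat) : ℝ := (d1 K : ℝ) - 16
noncomputable def cf2 (K : Nat) : ℝ := (d2 K : ℝ) - 64
noncomputable def cf3 (K : Nat) : ℝ := (d3 K : ℝ) - 128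
noncomputable def cf4 (K : Nat) : ℝ := (d4 K : ℝ) - 64

noncomputable def toPoly (K : Nat) : ℝ[X] :=
  C (cf0 K) + C (cf1 K) * X + C (cf2 K) * X ^ 2 + C (cf3 K) * X ^ 3 + C (cf4 K) * X ^ 4

def InS (K : Nat) : Prop := tree.mem K = true

def Is01 {n : ℕ} (g : (Fin n → Bool) → ℝ) : Prop := ∀ x, g x = 0 ∨ g x = 1

/-- K is the bias polynomial of a 0/1 valued function of degree <= 4. -/
def Rep (K : Nat) : Prop :=
  ∃ (n : ℕ) (g : (Fin n → Bool) → ℝ), Is01 g ∧ degree g ≤ 4 ∧ psiP n g = toPoly K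

/-- [A1] coefficients of toPoly (simp [toPoly, coeff_C_mul, coeff_X_pow, coeff_C, coeff_X]). -/
theorem coeff_toPoly (K : Nat) :
    (toPoly K).coeff 0 = cf0 K ∧ (toPoly K).coeff 1 = cf1 K ∧ (toPoly K).coeff 2 = cf2 K ∧
      (toPoly K).coeff 3 = cf3 K ∧ (toPoly K).coeff 4 = cf4 K := by
  refine ⟨?_, ?_, ?_, ?_, ?_⟩ <;>
    simp [toPoly, coeff_C_mul, coeff_X_pow, coeff_C, coeff_X]

/-- [A2] the combination as an explicit polynomial (unfold toPoly; simp only [map_sub, map_add]; ring). -/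
theorem comb_eq (K1 K2 : Nat) :
    (1 - X) * toPoly K1 + X * toPoly K2 =
      C (cf0 K1) + C (cf1 K1 + cf0 K2 - cf0 K1) * X + C (cf2 K1 + cf1 K2 - cf1 K1) * X ^ 2 +
        C (cf3 K1 + cf2 K2 - cf2 K1) * X ^ 3 + C (cf4 K1 + cf3 K2 - cf3 K1) * X ^ 4 +
        C (cf4 K2 - cf4 K1) * X ^ 5 := by
  unfold toPoly
  simp only [map_sub, map_add]
  ring

/-- all pairs with equal top digit pass the check (proved in Fin.lean from the kernel computations). -/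
def PairClosed : Prop := ∀ K1 K2 : Nat, InS K1 → InS K2 → d4 K1 = d4 K2 → pairOK tree K1 K2 = true

private theorem pairOK_spec78 (t : KT) (K1 K2 : Nat) (h : pairOK t K1 K2 = true) :
    d0 K1 ≤ d1 K1 + d0 K2 ∧ d1 K1 ≤ d2 K1 + d1 K2 ∧ d2 K1 ≤ d3 K1 + d2 K2 ∧
      d3 K1 ≤ d4 K1 + d3 K2 ∧ d1 K1 + d0 K2 - d0 K1 < 32 ∧ d2 K1 + d1 K2 - d1 K1 < 128 ∧
      d3 K1 + d2 K2 - d2 K1 < 256 ∧
      t.mem (mk (d0 K1) (d1 K1 + d0 K2 - d0 K1) (d2 K1 + d1 K2 - d1 K1) (d3 K1 + d2 K2 - d2 K1)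
        (d4 K1 + d3 K2 - d3 K1)) = true := by
  unfold pairOK at h
  simp only [Bool.and_eq_true, Nat.ble_eq, Nat.blt_eq] at h
  obtain ⟨⟨⟨⟨⟨⟨⟨h1, h2⟩, h3⟩, h4⟩, h5⟩, h6⟩, h7⟩, h8⟩ := h
  exact ⟨h1, h2, h3, h4, h5, h6, h7, h8⟩

/-- [A4] meaning of pairOK: unfold pairOK, Bool.and_eq_true, Nat.ble_eq, Nat.blt_eq; K = mk (d0 K1) w1 w2 w3 w4, digits_mk
(d0 K1 < 2 by omega); comb_eq; the X^5 term vanishes by h4; casts: push_cast with Nat.cast_sub. -/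
theorem exists_comb (K1 K2 : Nat) (h : pairOK tree K1 K2 = true) (h4 : d4 K1 = d4 K2) :
    ∃ K, InS K ∧ toPoly K = (1 - X) * toPoly K1 + X * toPoly K2 := by
  obtain ⟨a1, a2, a3, a4, b1, b2, b3, hm⟩ := pairOK_spec78 tree K1 K2 h
  refine ⟨_, hm, ?_⟩
  have h0 : d0 K1 < 2 := by
    unfold d0
    omega
  obtain ⟨e0, e1, e2, e3, e4⟩ := digits_mk (d0 K1) (d1 K1 + d0 K2 - d0 K1) (d2 K1 + d1 K2 - d1 K1)
    (d3 K1 + d2 K2 - d2 K1) (d4 K1 + d3 K2 - d3 K1) h0 b1 b2 b3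
  rw [comb_eq]
  unfold toPoly
  have c0 : cf0 (mk (d0 K1) (d1 K1 + d0 K2 - d0 K1) (d2 K1 + d1 K2 - d1 K1) (d3 K1 + d2 K2 - d2 K1)
      (d4 K1 + d3 K2 - d3 K1)) = cf0 K1 := by
    unfold cf0
    rw [e0]
  have c1 : cf1 (mk (d0 K1) (d1 K1 + d0 K2 - d0 K1) (d2 K1 + d1 K2 - d1 K1) (d3 K1 + d2 K2 - d2 K1)
      (d4 K1 + d3 K2 - d3 K1)) = cf1 K1 + cf0 K2 - cf0 K1 := by
    unfold cf1 cf0
    rw [e1, Nat.cast_sub a1]
    push_cast
    ring
  have c2 : cf2 (mk (d0 K1) (d1 K1 + d0 K2 - d0 K1) (d2 K1 + d1 K2 - d1 K1) (d3 K1 + d2 K2 - d2 K1)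
      (d4 K1 + d3 K2 - d3 K1)) = cf2 K1 + cf1 K2 - cf1 K1 := by
    unfold cf2 cf1
    rw [e2, Nat.cast_sub a2]
    push_cast
    ring
  have c3 : cf3 (mk (d0 K1) (d1 K1 + d0 K2 - d0 K1) (d2 K1 + d1 K2 - d1 K1) (d3 K1 + d2 K2 - d2 K1)
      (d4 K1 + d3 K2 - d3 K1)) = cf3 K1 + cf2 K2 - cf2 K1 := by
    unfold cf3 cf2
    rw [e3, Nat.cast_sub a3]
    push_cast
    ring
  have c4 : cf4 (mk (d0 K1) (d1 K1 + d0 K2 - d0 K1) (d2 K1 + d1 K2 - d1 K1) (d3 K1 + d2 K2 - d2 K1)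
      (d4 K1 + d3 K2 - d3 K1)) = cf4 K1 + cf3 K2 - cf3 K1 := by
    unfold cf4 cf3
    rw [e4, Nat.cast_sub a4]
    push_cast
    ring
  have c5 : cf4 K2 - cf4 K1 = 0 := by
    unfold cf4
    rw [h4]
    ring
  rw [c0, c1, c2, c3, c4, c5]
  simp

/-- [A5] the constants 0 and 1 are in the set: keys mk 0 16 64 128 64 and mk 1 16 64 128 64 (decide +kernel for the
membership, norm_num [toPoly, cf0, .., d0, ..] for the polynomial). -/
theorem const_InS (c : ℝ) (hc : c = 0 ∨ c = 1) : ∃ K, InS K ∧ toPoly K = C c := by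
  rcases hc with rfl | rfl
  · refine ⟨mk 0 16 64 128 64, by unfold InS; decide +kernel, ?_⟩
    obtain ⟨h0, h1, h2, h3, h4⟩ := digits_mk 0 16 64 128 64 (by norm_num) (by norm_num) (by norm_num) (by norm_num)
    simp [toPoly, cf0, cf1, cf2, cf3, cf4, h0, h1, h2, h3, h4]
  · refine ⟨mk 1 16 64 128 64, by unfold InS; decide +kernel, ?_⟩
    obtain ⟨h0, h1, h2, h3, h4⟩ := digits_mk 1 16 64 128 64 (by norm_num) (by norm_num) (by norm_num) (by norm_num)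
    simp [toPoly, cf0, cf1, cf2, cf3, cf4, h0, h1, h2, h3, h4]

/-- [A6] restrictions of 0/1 valued functions. -/
theorem is01_ins {n : ℕ} (i : Fin (n + 1)) (b : Bool) (g : (Fin (n + 1) → Bool) → ℝ) (hg : Is01 g) :
    Is01 (ins i b g) := fun _ => hg _

/-- [A7] THE CLOSURE THEOREM.  Induction on n.  n = 0: psiP_zero, const_InS.  Step: K1, K2 for ins 0 false g, ins 0 true g
(is01_ins, degree_ins_le); psiP_split; degree_psiP_lt with d = 5 (fourier_eq_zero_of_degree_lt) says that the coefficient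
of X^5 of (1-X) toPoly K1 + X toPoly K2 vanishes, i.e. cf4 K2 = cf4 K1 by comb_eq, so d4 K1 = d4 K2; hpc, exists_comb. -/
theorem rep_InS (hpc : PairClosed) (n : ℕ) (g : (Fin n → Bool) → ℝ) (hg : Is01 g) (hd : degree g ≤ 4) :
    ∃ K, InS K ∧ psiP n g = toPoly K := by
  induction n with
  | zero =>
    obtain ⟨K, hK, hP⟩ := const_InS (g Fin.elim0) (hg _)
    exact ⟨K, hK, by rw [psiP_zero, hP]⟩
  | succ n ih =>
    obtain ⟨K1, hK1, hP1⟩ := ih (ins 0 false g) (is01_ins 0 false g hg)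
      (le_trans (degree_ins_le n 0 false g) hd)
    obtain ⟨K2, hK2, hP2⟩ := ih (ins 0 true g) (is01_ins 0 true g hg)
      (le_trans (degree_ins_le n 0 true g) hd)
    have hsplit := psiP_split n 0 g
    rw [hP1, hP2] at hsplit
    have hdeg : (psiP (n + 1) g).degree < (5 : ℕ) :=
      degree_psiP_lt (n + 1) 5 g (fun S hS =>
        fourier_eq_zero_of_degree_lt g S (lt_of_le_of_lt hd (by omega)))
    have hc5 : (psiP (n + 1) g).coeff 5 = 0 := coeff_eq_zero_of_degree_lt hdeg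
    rw [hsplit, comb_eq] at hc5
    have h45 : cf4 K2 - cf4 K1 = 0 := by
      simp only [coeff_add, coeff_C_mul, coeff_X_pow, coeff_C, coeff_X] at hc5
      norm_num at hc5
      linarith
    have h4 : d4 K1 = d4 K2 := by
      unfold cf4 at h45
      have : (d4 K1 : ℝ) = (d4 K2 : ℝ) := by linarith
      exact_mod_cast this
    obtain ⟨K, hK, hP⟩ := exists_comb K1 K2 (hpc K1 K2 hK1 hK2 h4) h4
    exact ⟨K, hK, by rw [hsplit, hP]⟩

end Vale.Agent.P047.D4
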