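import Vale.Agent.P047.D4.Clos

/-! The cone filter: psi' = sum_i (v_i - u_i) excludes the polynomials with psi'(1/2) = 2. -/

namespace Vale.Agent.P047.D4

open Polynomial Finset Vale.Agent.P047

/-- [B1] general principle.  Let (n, g) represent T.  n = 0: psiP = C c so cf1 T = .. = cf4 T = 0 (coeff_toPoly), against hpos.
n + 1: for every i take K1 i, K2 i from rep_InS hpc for ins i false g, ins i true g (is01_ins, degree_ins_le); they are Rep, hence
not Dead; psiP_split gives toPoly T = (1-X) toPoly (K1 i) + X toPoly (K2 i); derivative_psiP gives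
derivative (toPoly T) = sum_i (toPoly (K2 i) - toPoly (K1 i)).  Compare the coefficients 0..3 (coeff_derivative, finset_sum_coeff,
coeff_toPoly): (k+1) cf_(k+1) T = sum_i (cf_k (K2 i) - cf_k (K1 i)); take the combination with l0..l3. -/
theorem cone_kill (hpc : PairClosed) (T : Nat) (l0 l1 l2 l3 : ℝ) (Dead : Nat → Prop) (hdead : ∀ K, Dead K → ¬ Rep K)
    (hcert : ∀ K1 K2, InS K1 → InS K2 → ¬ Dead K1 → ¬ Dead K2 →
      toPoly T = (1 - X) * toPoly K1 + X * toPoly K2 →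
      l0 * (cf0 K2 - cf0 K1) + l1 * (cf1 K2 - cf1 K1) + l2 * (cf2 K2 - cf2 K1) + l3 * (cf3 K2 - cf3 K1) ≤ 0)
    (hpos : 0 < l0 * cf1 T + l1 * (2 * cf2 T) + l2 * (3 * cf3 T) + l3 * (4 * cf4 T)) :
    ¬ Rep T := by
  rintro ⟨n, g, hg, hd, hT⟩
  obtain ⟨-, c1, c2, c3, c4⟩ := coeff_toPoly T
  cases n with
  | zero =>
    rw [psiP_zero] at hT
    have e1 : cf1 T = 0 := by rw [← c1, ← hT, coeff_C]; simp
    have e2 : cf2 T = 0 := by rw [← c2, ← hT, coeff_C]; simp
    have e3 : cf3 T = 0 := by rw [← c3, ← hT, coeff_C]; simp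
    have e4 : cf4 T = 0 := by rw [← c4, ← hT, coeff_C]; simp
    rw [e1, e2, e3, e4] at hpos
    simp at hpos
  | succ n =>
    have H : ∀ i : Fin (n + 1), ∃ K1 K2, InS K1 ∧ InS K2 ∧
        psiP n (ins i false g) = toPoly K1 ∧ psiP n (ins i true g) = toPoly K2 := by
      intro i
      obtain ⟨K1, a1, b1⟩ := rep_InS hpc n (ins i false g) (is01_ins i false g hg)
        (le_trans (degree_ins_le n i false g) hd)
      obtain ⟨K2, a2, b2⟩ := rep_InS hpc n (ins i true g) (is01_ins i true g hg)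
        (le_trans (degree_ins_le n i true g) hd)
      exact ⟨K1, K2, a1, a2, b1, b2⟩
    choose K1 K2 h1 h2 e1 e2 using H
    have hder : derivative (toPoly T) = ∑ i, (toPoly (K2 i) - toPoly (K1 i)) := by
      rw [← hT, derivative_psiP]
      exact Finset.sum_congr rfl (fun i _ => by rw [e1, e2])
    have hi : ∀ i, l0 * (cf0 (K2 i) - cf0 (K1 i)) + l1 * (cf1 (K2 i) - cf1 (K1 i)) +
        l2 * (cf2 (K2 i) - cf2 (K1 i)) + l3 * (cf3 (K2 i) - cf3 (K1 i)) ≤ 0 := by
      intro i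
      refine hcert (K1 i) (K2 i) (h1 i) (h2 i) ?_ ?_ ?_
      · exact fun h => hdead _ h ⟨n, _, is01_ins i false g hg,
          le_trans (degree_ins_le n i false g) hd, e1 i⟩
      · exact fun h => hdead _ h ⟨n, _, is01_ins i true g hg,
          le_trans (degree_ins_le n i true g) hd, e2 i⟩
      · rw [← hT, psiP_split n i g, e1, e2]
    have k0 : cf1 T = ∑ i, (cf0 (K2 i) - cf0 (K1 i)) := by
      have := congrArg (fun p => p.coeff 0) hder
      simp only [coeff_derivative, finsetSum_coeff, coeff_sub, zero_add, c1] at this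
      rw [Finset.sum_congr rfl (fun i _ => by
        rw [(coeff_toPoly (K2 i)).1, (coeff_toPoly (K1 i)).1])] at this
      rw [← this]; norm_num
    have k1 : 2 * cf2 T = ∑ i, (cf1 (K2 i) - cf1 (K1 i)) := by
      have := congrArg (fun p => p.coeff 1) hder
      simp only [coeff_derivative, finsetSum_coeff, coeff_sub, Nat.reduceAdd, c2] at this
      rw [Finset.sum_congr rfl (fun i _ => by
        rw [(coeff_toPoly (K2 i)).2.1, (coeff_toPoly (K1 i)).2.1])] at this
      rw [← this]; norm_num; ring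
    have k2 : 3 * cf3 T = ∑ i, (cf2 (K2 i) - cf2 (K1 i)) := by
      have := congrArg (fun p => p.coeff 2) hder
      simp only [coeff_derivative, finsetSum_coeff, coeff_sub, Nat.reduceAdd, c3] at this
      rw [Finset.sum_congr rfl (fun i _ => by
        rw [(coeff_toPoly (K2 i)).2.2.1, (coeff_toPoly (K1 i)).2.2.1])] at this
      rw [← this]; norm_num; ring
    have k3 : 4 * cf4 T = ∑ i, (cf3 (K2 i) - cf3 (K1 i)) := by
      have := congrArg (fun p => p.coeff 3) hder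
      simp only [coeff_derivative, finsetSum_coeff, coeff_sub, Nat.reduceAdd, c4] at this
      rw [Finset.sum_congr rfl (fun i _ => by
        rw [(coeff_toPoly (K2 i)).2.2.2.1, (coeff_toPoly (K1 i)).2.2.2.1])] at this
      rw [← this]; norm_num; ring
    have hsum : l0 * cf1 T + l1 * (2 * cf2 T) + l2 * (3 * cf3 T) + l3 * (4 * cf4 T) =
        ∑ i, (l0 * (cf0 (K2 i) - cf0 (K1 i)) + l1 * (cf1 (K2 i) - cf1 (K1 i)) +
        l2 * (cf2 (K2 i) - cf2 (K1 i)) + l3 * (cf3 (K2 i) - cf3 (K1 i))) := by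
      rw [k0, k1, k2, k3, Finset.mul_sum, Finset.mul_sum, Finset.mul_sum, Finset.mul_sum,
        ← Finset.sum_add_distrib, ← Finset.sum_add_distrib, ← Finset.sum_add_distrib]
    have hle := Finset.sum_nonpos (fun i (_ : i ∈ Finset.univ) => hi i)
    rw [hsum] at hpos
    exact absurd hpos (not_lt.mpr hle)

private lemma coeff_gen (a0 a1 a2 a3 a4 a5 : ℝ) :
    (C a0 + C a1 * X + C a2 * X ^ 2 + C a3 * X ^ 3 + C a4 * X ^ 4 + C a5 * X ^ 5 : ℝ[X]).coeff 0 = a0 ∧
    (C a0 + C a1 * X + C a2 * X ^ 2 + C a3 * X ^ 3 + C a4 * X ^ 4 + C a5 * X ^ 5 : ℝ[X]).coeff 1 = a1 ∧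
    (C a0 + C a1 * X + C a2 * X ^ 2 + C a3 * X ^ 3 + C a4 * X ^ 4 + C a5 * X ^ 5 : ℝ[X]).coeff 2 = a2 ∧
    (C a0 + C a1 * X + C a2 * X ^ 2 + C a3 * X ^ 3 + C a4 * X ^ 4 + C a5 * X ^ 5 : ℝ[X]).coeff 3 = a3 ∧
    (C a0 + C a1 * X + C a2 * X ^ 2 + C a3 * X ^ 3 + C a4 * X ^ 4 + C a5 * X ^ 5 : ℝ[X]).coeff 4 = a4 ∧
    (C a0 + C a1 * X + C a2 * X ^ 2 + C a3 * X ^ 3 + C a4 * X ^ 4 + C a5 * X ^ 5 : ℝ[X]).coeff 5 = a5 := by
  refine ⟨?_, ?_, ?_, ?_, ?_, ?_⟩ <;> simp [coeff_X, coeff_C, coeff_X_pow]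

/-- [B2] meaning of the certificate check.  K1 is in tree.toList (mem_toList), so tgtOK .. K1 = true.  From the polynomial
identity and comb_eq, coeff_toPoly: cf0 T = cf0 K1, cf_(k+1) T = cf_(k+1) K1 + cf_k K2 - cf_k K1 (k = 0..3), cf4 K2 = cf4 K1.
In natural numbers (exact_mod_cast / linarith then omega): d0 T = d0 K1, d_(k+1) T + d_k K1 = d_(k+1) K1 + d_k K2 up to the offsets,
which are built into the shifts: d1 T + d0 K1 = d1 K1 + d0 K2 ... CAREFUL with offsets: cf1 = d1 - 16, cf0 = d0, so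
d1 T - 16 = d1 K1 - 16 + d0 K2 - d0 K1;  d2 T - 64 = d2 K1 - 64 + (d1 K2 - 16) - (d1 K1 - 16); etc.  Hence the v_k computed in tgtOK are
d_k K2, K2 = mk .. by mk_digits, all tests in the first factor are true, so the Farkas inequality holds; cast it to the reals. -/
theorem cert_sound (T p0 p1 p2 p3 n0 n1 n2 n3 : Nat) (dead : List Nat)
    (h : checkTgt tree T p0 p1 p2 p3 n0 n1 n2 n3 dead = true)
    (K1 K2 : Nat) (h1 : InS K1) (h2 : InS K2) (hd1 : K1 ∉ dead) (hd2 : K2 ∉ dead)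
    (hT : toPoly T = (1 - X) * toPoly K1 + X * toPoly K2) :
    ((p0 : ℝ) - n0) * (cf0 K2 - cf0 K1) + ((p1 : ℝ) - n1) * (cf1 K2 - cf1 K1) +
      ((p2 : ℝ) - n2) * (cf2 K2 - cf2 K1) + ((p3 : ℝ) - n3) * (cf3 K2 - cf3 K1) ≤ 0 := by
  unfold checkTgt at h
  rw [List.all_eq_true] at h
  have hk := h K1 (mem_toList _ _ h1)
  rw [comb_eq] at hT
  obtain ⟨t0, t1, t2, t3, t4⟩ := coeff_toPoly T
  obtain ⟨s0, s1, s2, s3, s4, s5⟩ := coeff_gen (cf0 K1) (cf1 K1 + cf0 K2 - cf0 K1) (cf2 K1 + cf1 K2 - cf1 K1)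
    (cf3 K1 + cf2 K2 - cf2 K1) (cf4 K1 + cf3 K2 - cf3 K1) (cf4 K2 - cf4 K1)
  rw [← hT] at s0 s1 s2 s3 s4 s5
  have e0 : cf0 T = cf0 K1 := by
    rw [← t0, s0]
  have e1 : cf1 T = cf1 K1 + cf0 K2 - cf0 K1 := by
    rw [← t1, s1]
  have e2 : cf2 T = cf2 K1 + cf1 K2 - cf1 K1 := by
    rw [← t2, s2]
  have e3 : cf3 T = cf3 K1 + cf2 K2 - cf2 K1 := by
    rw [← t3, s3]
  have e4 : cf4 T = cf4 K1 + cf3 K2 - cf3 K1 := by
    rw [← t4, s4]
  have e5 : cf4 K2 - cf4 K1 = 0 := by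
    have : (toPoly T).coeff 5 = 0 := by
      simp [toPoly, coeff_X_pow]
    rw [← s5, this]
  unfold cf0 cf1 cf2 cf3 cf4 at *
  have f0 : d0 T = d0 K1 := by exact_mod_cast e0
  have f1 : d1 T + d0 K1 = d1 K1 + d0 K2 := by
    have : (d1 T : ℝ) + d0 K1 = d1 K1 + d0 K2 := by linarith
    exact_mod_cast this
  have f2 : d2 T + d1 K1 = d2 K1 + d1 K2 := by
    have : (d2 T : ℝ) + d1 K1 = d2 K1 + d1 K2 := by linarith
    exact_mod_cast this
  have f3 : d3 T + d2 K1 = d3 K1 + d2 K2 := by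
    have : (d3 T : ℝ) + d2 K1 = d3 K1 + d2 K2 := by linarith
    exact_mod_cast this
  have f4 : d4 T + d3 K1 = d4 K1 + d3 K2 := by
    have : (d4 T : ℝ) + d3 K1 = d4 K1 + d3 K2 := by linarith
    exact_mod_cast this
  have f5 : d4 K2 = d4 K1 := by
    have : (d4 K2 : ℝ) = d4 K1 := by linarith
    exact_mod_cast this
  have v0 : d0 K1 + d1 T - d1 K1 = d0 K2 := by omega
  have v1 : d1 K1 + d2 T - d2 K1 = d1 K2 := by omega
  have v2 : d2 K1 + d3 T - d3 K1 = d2 K2 := by omega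
  have v3 : d3 K1 + d4 T - d4 K1 = d3 K2 := by omega
  have b0 : d0 K2 < 2 := by unfold d0; omega
  have b1 : d1 K2 < 32 := by unfold d1; omega
  have b2 : d2 K2 < 128 := by unfold d2; omega
  have b3 : d3 K2 < 256 := by unfold d3; omega
  unfold tgtOK at hk
  simp only [v0, v1, v2, v3] at hk
  rw [← f5, mk_digits] at hk
  have hm : tree.mem K2 = true := h2
  have c1 : dead.contains K1 = false := by
    rw [← Bool.not_eq_true, List.contains_iff_mem]; exact hd1
  have c2 : dead.contains K2 = false := by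
    rw [← Bool.not_eq_true, List.contains_iff_mem]; exact hd2
  have g0 : Nat.beq (d0 K1) (d0 T) = true := by rw [Nat.beq_eq]; omega
  have g1 : Nat.ble (d1 K1) (d0 K1 + d1 T) = true := by rw [Nat.ble_eq]; omega
  have g2 : Nat.ble (d2 K1) (d1 K1 + d2 T) = true := by rw [Nat.ble_eq]; omega
  have g3 : Nat.ble (d3 K1) (d2 K1 + d3 T) = true := by rw [Nat.ble_eq]; omega
  have g4 : Nat.ble (d4 K2) (d3 K1 + d4 T) = true := by rw [Nat.ble_eq]; omega
  have g5 : Nat.blt (d0 K2) 2 = true := by rw [Nat.blt_eq]; omega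
  have g6 : Nat.blt (d1 K2) 32 = true := by rw [Nat.blt_eq]; omega
  have g7 : Nat.blt (d2 K2) 128 = true := by rw [Nat.blt_eq]; omega
  have g8 : Nat.blt (d3 K2) 256 = true := by rw [Nat.blt_eq]; omega
  rw [g0, g1, g2, g3, g4, g5, g6, g7, g8, hm, c1, c2] at hk
  simp only [Bool.and_self, Bool.not_false, Bool.not_true, Bool.false_or, Nat.ble_eq] at hk
  have hr : ((p0 * d0 K2 + p1 * d1 K2 + p2 * d2 K2 + p3 * d3 K2 + n0 * d0 K1 + n1 * d1 K1 + n2 * d2 K1 + n3 * d3 K1 : ℕ) : ℝ)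
      ≤ ((p0 * d0 K1 + p1 * d1 K1 + p2 * d2 K1 + p3 * d3 K1 + n0 * d0 K2 + n1 * d1 K2 + n2 * d2 K2 + n3 * d3 K2 : ℕ) : ℝ) := by
    exact_mod_cast hk
  push_cast at hr
  nlinarith [hr]

/-- [B7] derivative of toPoly at 1/2 (simp [toPoly, derivative_..]; ring / norm_num). -/
theorem derivative_toPoly_half (K : Nat) :
    (derivative (toPoly K)).eval (1 / 2) = cf1 K + cf2 K + 3 / 4 * cf3 K + 1 / 2 * cf4 K := by
  unfold toPoly
  simp only [derivative_add, derivative_mul, derivative_C, derivative_X, derivative_X_pow, eval_add, eval_mul,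
    eval_C, eval_X, eval_pow, zero_mul, zero_add, mul_one, map_natCast, eval_natCast]
  norm_num
  ring

/-- [B8] g = (1 + f)/2 : 0/1 valued, degree g <= degree f (fourier g S = fourier f S / 2 for nonempty S; use fourier_add-type
linearity from Beat/Tensor.lean, fourier_const_of_nonempty), linSum f = 2 linSum g. -/
theorem half_props (n : ℕ) (f : (Fin n → Bool) → ℝ) (hf : IsBoolean f) :
    Is01 (fun x => (1 + f x) / 2) ∧ degree (fun x => (1 + f x) / 2) ≤ degree f ∧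
      linSum f = 2 * linSum (fun x => (1 + f x) / 2) := by
  have hF : ∀ S : Finset (Fin n), S.Nonempty →
      fourier (fun x => (1 + f x) / 2) S = fourier f S / 2 := by
    intro S hS
    unfold fourier
    have h1 : ∑ x : Fin n → Bool, (1 + f x) / 2 * chi S x =
        (∑ x : Fin n → Bool, chi S x) / 2 + (∑ x : Fin n → Bool, f x * chi S x) / 2 := by
      rw [Finset.sum_div, Finset.sum_div, ← Finset.sum_add_distrib]
      apply Finset.sum_congr rfl
      intro x _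
      ring
    rw [h1, sum_chi_eq_zero S hS]
    ring
  refine ⟨?_, ?_, ?_⟩
  · intro x
    rcases hf x with h | h
    · right; simp only [h]; norm_num
    · left; simp only [h]; norm_num
  · apply degree_le_of_forall
    intro S hS
    have hne : S.Nonempty := Finset.card_pos.mp (by omega)
    rw [hF S hne, fourier_eq_zero_of_degree_lt f S hS, zero_div]
  · unfold linSum
    rw [Finset.mul_sum]
    apply Finset.sum_congr rfl
    intro i _
    rw [hF {i} (Finset.singleton_nonempty i)]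
    ring

end Vale.Agent.P047.D4
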