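import Mathlib

/-! P047, degree 4: finite closure computation.  A polynomial c0 + c1 p + ... + c4 p^4 with integer coefficients is stored
as the natural number  a0 + 2 (a1 + 32 (a2 + 128 (a3 + 256 a4))),  a = c + (0,16,64,128,64). -/

namespace Vale.Agent.P047.D4

inductive KT where
  | leaf : KT
  | node : KT → Nat → KT → KT

def KT.mem : KT → Nat → Bool
  | .leaf, _ => false
  | .node l k r, x => cond (Nat.blt x k) (l.mem x) (cond (Nat.blt k x) (r.mem x) true)

def KT.toList : KT → List Nat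
  | .leaf => []
  | .node l k r => l.toList ++ k :: r.toList

def d0 (K : Nat) : Nat := K % 2
def d1 (K : Nat) : Nat := (K / 2) % 32
def d2 (K : Nat) : Nat := (K / 64) % 128
def d3 (K : Nat) : Nat := (K / 8192) % 256
def d4 (K : Nat) : Nat := K / 2097152

def mk (a0 a1 a2 a3 a4 : Nat) : Nat := a0 + 2 * (a1 + 32 * (a2 + 128 * (a3 + 256 * a4)))

/-- is there w in the tree with w = (1-p) u + p v ? -/
def pairOK (t : KT) (K1 K2 : Nat) : Bool :=
  let w1 := d1 K1 + d0 K2 - d0 K1
  let w2 := d2 K1 + d1 K2 - d1 K1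
  let w3 := d3 K1 + d2 K2 - d2 K1
  let w4 := d4 K1 + d3 K2 - d3 K1
  Nat.ble (d0 K1) (d1 K1 + d0 K2) && Nat.ble (d1 K1) (d2 K1 + d1 K2) && Nat.ble (d2 K1) (d3 K1 + d2 K2) &&
    Nat.ble (d3 K1) (d4 K1 + d3 K2) && Nat.blt w1 32 && Nat.blt w2 128 && Nat.blt w3 256 &&
    t.mem (mk (d0 K1) w1 w2 w3 w4)

def grp (g : List (List Nat)) (a : Nat) : List Nat := g.getD a []

def checkComplete (g : List (List Nat)) (ks : List Nat) : Bool :=
  ks.all (fun K => (grp g (d4 K)).contains K)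

def checkGroup (t : KT) (g : List Nat) : Bool := g.all (fun K1 => g.all (fun K2 => pairOK t K1 K2))

/-- certificate check for a target polynomial T: for u = K1 the partner v is forced; if v is in the tree and neither is
dead, the functional (lp - ln) must be nonpositive on v - u. -/
def tgtOK (t : KT) (T : Nat) (p0 p1 p2 p3 n0 n1 n2 n3 : Nat) (dead : List Nat) (K1 : Nat) : Bool :=
  let v0 := d0 K1 + d1 T - d1 K1
  let v1 := d1 K1 + d2 T - d2 K1
  let v2 := d2 K1 + d3 T - d3 K1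
  let v3 := d3 K1 + d4 T - d4 K1
  let K2 := mk v0 v1 v2 v3 (d4 K1)
  !(Nat.beq (d0 K1) (d0 T) && Nat.ble (d1 K1) (d0 K1 + d1 T) && Nat.ble (d2 K1) (d1 K1 + d2 T) &&
      Nat.ble (d3 K1) (d2 K1 + d3 T) && Nat.ble (d4 K1) (d3 K1 + d4 T) &&
      Nat.blt v0 2 && Nat.blt v1 32 && Nat.blt v2 128 && Nat.blt v3 256 && t.mem K2 &&
      !(dead.contains K1) && !(dead.contains K2)) ||
    Nat.ble (p0 * v0 + p1 * v1 + p2 * v2 + p3 * v3 + n0 * d0 K1 + n1 * d1 K1 + n2 * d2 K1 + n3 * d3 K1)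
      (p0 * d0 K1 + p1 * d1 K1 + p2 * d2 K1 + p3 * d3 K1 + n0 * v0 + n1 * v1 + n2 * v2 + n3 * v3)

def checkTgt (t : KT) (T : Nat) (p0 p1 p2 p3 n0 n1 n2 n3 : Nat) (dead : List Nat) : Bool :=
  t.toList.all (tgtOK t T p0 p1 p2 p3 n0 n1 n2 n3 dead)

/-- 4 psi'(1/2) <= 7 unless K is in the list top -/
def checkL (t : KT) (top : List Nat) : Bool :=
  t.toList.all (fun K => top.contains K || Nat.ble (4 * d1 K + 4 * d2 K + 3 * d3 K + 2 * d4 K) 839)

/-- [K1] induction on t; Nat.blt/cond case analysis (in the last branch x = k since neither x < k nor k < x). -/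
theorem mem_toList (t : KT) (x : Nat) (h : t.mem x = true) : x ∈ t.toList := by
  induction t with
  | leaf => simp [KT.mem] at h
  | node l k r ihl ihr =>
    simp only [KT.toList, List.mem_append, List.mem_cons]
    unfold KT.mem at h
    by_cases h1 : x < k
    · have e : Nat.blt x k = true := by simpa [Nat.blt_eq] using h1
      rw [e] at h
      exact Or.inl (ihl h)
    · have e : Nat.blt x k = false := by
        cases hb : Nat.blt x k
        · rfl
        · exact absurd (by simpa [Nat.blt_eq] using hb) h1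
      rw [e] at h
      by_cases h2 : k < x
      · have e2 : Nat.blt k x = true := by simpa [Nat.blt_eq] using h2
        rw [e2] at h
        exact Or.inr (Or.inr (ihr h))
      · exact Or.inr (Or.inl (by omega))

/-- [K2] omega after unfolding. -/
theorem mk_digits (K : Nat) : mk (d0 K) (d1 K) (d2 K) (d3 K) (d4 K) = K := by
  unfold mk d0 d1 d2 d3 d4
  omega

/-- [K3] omega after unfolding. -/
theorem digits_mk (a0 a1 a2 a3 a4 : Nat) (h0 : a0 < 2) (h1 : a1 < 32) (h2 : a2 < 128) (h3 : a3 < 256) :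
    d0 (mk a0 a1 a2 a3 a4) = a0 ∧ d1 (mk a0 a1 a2 a3 a4) = a1 ∧ d2 (mk a0 a1 a2 a3 a4) = a2 ∧
      d3 (mk a0 a1 a2 a3 a4) = a3 ∧ d4 (mk a0 a1 a2 a3 a4) = a4 := by
  unfold mk d0 d1 d2 d3 d4
  omega

end Vale.Agent.P047.D4
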