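import Vale.Agent.P047.D4.Cone
import Vale.Agent.P047.D4.ChkAll

/-! Assembly with the kernel computations. -/

namespace Vale.Agent.P047.D4

open Polynomial Finset Vale.Agent.P047

/-- [A3] all pairs with equal top digit pass the check: mem_toList, complete_ok (K2 lies in grp groups (d4 K2)),
groups_ok_lt (if d4 K1 >= 105 then grp groups (d4 K1) = [] contradicts complete_ok), List.all_eq_true,
List.contains_iff_mem / List.elem_iff. -/
theorem pairClosed : PairClosed := by
  intro K1 K2 h1 h2 h4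
  have hc := complete_ok
  unfold checkComplete at hc
  rw [List.all_eq_true] at hc
  have m1 := hc K1 (mem_toList _ _ h1)
  have m2 := hc K2 (mem_toList _ _ h2)
  rw [List.contains_iff_mem] at m1 m2
  rw [← h4] at m2
  by_cases hlt : d4 K1 < 105
  · have hg := groups_ok_lt (d4 K1) hlt
    unfold checkGroup at hg
    rw [List.all_eq_true] at hg
    have := hg K1 m1
    rw [List.all_eq_true] at this
    exact this K2 m2
  · exfalso
    have hlen : groups.length = 105 := by decide +kernel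
    have : grp groups (d4 K1) = [] := by
      unfold grp
      rw [List.getD_eq_default]
      omega
    rw [this] at m1
    simp at m1

/-- [B3] combination of B1 and B2. -/
theorem not_rep_of_check (T p0 p1 p2 p3 n0 n1 n2 n3 : Nat) (dead : List Nat)
    (h : checkTgt tree T p0 p1 p2 p3 n0 n1 n2 n3 dead = true) (hdead : ∀ K ∈ dead, ¬ Rep K)
    (hpos : 0 < ((p0 : ℝ) - n0) * cf1 T + ((p1 : ℝ) - n1) * (2 * cf2 T) + ((p2 : ℝ) - n2) * (3 * cf3 T) +
      ((p3 : ℝ) - n3) * (4 * cf4 T)) :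
    ¬ Rep T :=
  cone_kill pairClosed T _ _ _ _ (fun K => K ∈ dead) hdead
    (fun K1 K2 h1 h2 hd1 hd2 hT => cert_sound T p0 p1 p2 p3 n0 n1 n2 n3 dead h K1 K2 h1 h2 hd1 hd2 hT) hpos

/-- [B4] round 1: the 12 polynomials of dead1 are not representable.  For each of tgt_ok_0 .. tgt_ok_11 apply not_rep_of_check with
dead = [] ; hpos by norm_num [cf1, cf2, cf3, cf4, d1, d2, d3, d4].  dead1 is the list of their keys (simp [dead1] / fin cases). -/
theorem dead1_not_rep : ∀ K ∈ dead1, ¬ Rep K := by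
  intro K hK
  have hnil : ∀ K ∈ ([] : List Nat), ¬ Rep K := by
    intro K h
    simp at h
  simp only [dead1, List.mem_cons, List.not_mem_nil, or_false] at hK
  rcases hK with h | h | h | h | h | h | h | h | h | h | h | h <;> subst h
  · exact not_rep_of_check _ _ _ _ _ _ _ _ _ _ tgt_ok_0 hnil (by norm_num [cf1, cf2, cf3, cf4, d1, d2, d3, d4])
  · exact not_rep_of_check _ _ _ _ _ _ _ _ _ _ tgt_ok_1 hnil (by norm_num [cf1, cf2, cf3, cf4, d1, d2, d3, d4])
  · exact not_rep_of_check _ _ _ _ _ _ _ _ _ _ tgt_ok_2 hnil (by norm_num [cf1, cf2, cf3, cf4, d1, d2, d3, d4])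
  · exact not_rep_of_check _ _ _ _ _ _ _ _ _ _ tgt_ok_3 hnil (by norm_num [cf1, cf2, cf3, cf4, d1, d2, d3, d4])
  · exact not_rep_of_check _ _ _ _ _ _ _ _ _ _ tgt_ok_4 hnil (by norm_num [cf1, cf2, cf3, cf4, d1, d2, d3, d4])
  · exact not_rep_of_check _ _ _ _ _ _ _ _ _ _ tgt_ok_5 hnil (by norm_num [cf1, cf2, cf3, cf4, d1, d2, d3, d4])
  · exact not_rep_of_check _ _ _ _ _ _ _ _ _ _ tgt_ok_6 hnil (by norm_num [cf1, cf2, cf3, cf4, d1, d2, d3, d4])
  · exact not_rep_of_check _ _ _ _ _ _ _ _ _ _ tgt_ok_7 hnil (by norm_num [cf1, cf2, cf3, cf4, d1, d2, d3, d4])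
  · exact not_rep_of_check _ _ _ _ _ _ _ _ _ _ tgt_ok_8 hnil (by norm_num [cf1, cf2, cf3, cf4, d1, d2, d3, d4])
  · exact not_rep_of_check _ _ _ _ _ _ _ _ _ _ tgt_ok_9 hnil (by norm_num [cf1, cf2, cf3, cf4, d1, d2, d3, d4])
  · exact not_rep_of_check _ _ _ _ _ _ _ _ _ _ tgt_ok_10 hnil (by norm_num [cf1, cf2, cf3, cf4, d1, d2, d3, d4])
  · exact not_rep_of_check _ _ _ _ _ _ _ _ _ _ tgt_ok_11 hnil (by norm_num [cf1, cf2, cf3, cf4, d1, d2, d3, d4])

/-- [B5] round 2: tgt_ok_12 with dead1_not_rep; then all 9 keys of topL are excluded (8 of them are in dead1). -/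
theorem topL_not_rep : ∀ K ∈ topL, ¬ Rep K := by
  intro K hK
  simp only [topL, List.mem_cons, List.not_mem_nil, or_false] at hK
  rcases hK with h | h | h | h | h | h | h | h | h <;> subst h
  · exact dead1_not_rep _ (by simp [dead1])
  · exact dead1_not_rep _ (by simp [dead1])
  · exact dead1_not_rep _ (by simp [dead1])
  · exact dead1_not_rep _ (by simp [dead1])
  · exact dead1_not_rep _ (by simp [dead1])
  · exact dead1_not_rep _ (by simp [dead1])
  · exact dead1_not_rep _ (by simp [dead1])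
  · exact dead1_not_rep _ (by simp [dead1])
  · exact not_rep_of_check _ _ _ _ _ _ _ _ _ _ tgt_ok_12 dead1_not_rep
      (by norm_num [cf1, cf2, cf3, cf4, d1, d2, d3, d4])

/-- [B6] from L_ok: mem_toList, List.all_eq_true, Nat.ble_eq; 4 cf1 + 4 cf2 + 3 cf3 + 2 cf4 = (4 d1 + 4 d2 + 3 d3 + 2 d4) - 832. -/
theorem L_bound (K : Nat) (h : InS K) (hK : K ∉ topL) :
    4 * cf1 K + 4 * cf2 K + 3 * cf3 K + 2 * cf4 K ≤ 7 := by
  have hc := L_ok
  unfold checkL at hc
  rw [List.all_eq_true] at hc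
  have m1 := hc K (mem_toList _ _ h)
  rw [Bool.or_eq_true] at m1
  rcases m1 with m1 | m1
  · rw [List.contains_iff_mem] at m1
    exact absurd m1 hK
  · rw [Nat.ble_eq] at m1
    have : ((4 * d1 K + 4 * d2 K + 3 * d3 K + 2 * d4 K : ℕ) : ℝ) ≤ 839 := by exact_mod_cast m1
    push_cast at this
    unfold cf1 cf2 cf3 cf4
    linarith

/-- MAIN: M(4) <= 7/4. -/
theorem deg_four (n : ℕ) (f : (Fin n → Bool) → ℝ) (hf : IsBoolean f) (hd : degree f ≤ 4) :
    ∑ i, fourier f {i} ≤ 7 / 4 := by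
  obtain ⟨h01, hdeg, hL⟩ := half_props n f hf
  obtain ⟨K, hK, hrep⟩ := rep_InS pairClosed n _ h01 (hdeg.trans hd)
  have hnot : K ∉ topL := fun hmem => topL_not_rep K hmem ⟨n, _, h01, hdeg.trans hd, hrep⟩
  have h1 := L_bound K hK hnot
  have h2 := derivative_psiP_eval_half n (fun x => (1 + f x) / 2)
  rw [hrep, derivative_toPoly_half] at h2
  have h3 : linSum f = ∑ i, fourier f {i} := rfl
  rw [← h3, hL, ← h2]
  linarith

end Vale.Agent.P047.D4
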