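import Vale.Agent.P047.Beat.Comp

/-! The bias polynomial psi_g(p) = E g(x), the x_i independent and true with probability p. -/

namespace Vale.Agent.P047.D4

open Polynomial Finset Vale.Agent.P047

noncomputable def hb (b : Bool) : ℝ[X] := if b then X else 1 - X

noncomputable def psiP (n : ℕ) (g : (Fin n → Bool) → ℝ) : ℝ[X] := ∑ x, C (g x) * ∏ j, hb (x j)

/-- fix the coordinate i to the value b -/
def ins {n : ℕ} (i : Fin (n + 1)) (b : Bool) (g : (Fin (n + 1) → Bool) → ℝ) : (Fin n → Bool) → ℝ :=
  fun y => g (Fin.insertNth i b y)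

/-- [Q0] one point. -/
theorem psiP_zero (g : (Fin 0 → Bool) → ℝ) : psiP 0 g = C (g Fin.elim0) := by
  unfold psiP
  rw [Fintype.sum_unique]
  simp only [Finset.univ_eq_empty, Finset.prod_empty, mul_one]
  congr 2

/-- [Q0b] linearity (sum_add_distrib, mul_sum, C_add, C_mul). -/
theorem psiP_lin (n : ℕ) (a b : ℝ) (g h : (Fin n → Bool) → ℝ) :
    psiP n (fun x => a * g x + b * h x) = C a * psiP n g + C b * psiP n h := by
  unfold psiP
  rw [Finset.mul_sum, Finset.mul_sum, ← Finset.sum_add_distrib]
  refine Finset.sum_congr rfl ?_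
  intro x _
  rw [C_add, C_mul, C_mul]
  ring

private lemma sum_ins63 {n : ℕ} (i : Fin (n + 1)) {M : Type*} [AddCommMonoid M]
    (F : (Fin (n + 1) → Bool) → M) :
    ∑ x, F x = ∑ y : Fin n → Bool, (F (Fin.insertNth i true y) + F (Fin.insertNth i false y)) := by
  rw [← (Fin.insertNthEquiv (fun _ : Fin (n + 1) => Bool) i).sum_comp, Fintype.sum_prod_type,
    Fintype.sum_bool, ← Finset.sum_add_distrib]
  rfl

/-- [Q1] split off the coordinate i: reindex the sum by (Fin.insertNthEquiv (fun _ => Bool) i) (as in sum_cons of
Beat/Comp.lean), Fintype.sum_prod_type, Fintype.sum_bool, and Fin.prod_univ_succAbove _ i with Fin.insertNth_apply_same,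
Fin.insertNth_apply_succAbove. -/
theorem psiP_split (n : ℕ) (i : Fin (n + 1)) (g : (Fin (n + 1) → Bool) → ℝ) :
    psiP (n + 1) g = (1 - X) * psiP n (ins i false g) + X * psiP n (ins i true g) := by
  unfold psiP
  rw [sum_ins63 i, Finset.mul_sum, Finset.mul_sum, ← Finset.sum_add_distrib]
  apply Finset.sum_congr rfl
  intro y _
  rw [Fin.prod_univ_succAbove _ i, Fin.prod_univ_succAbove _ i]
  simp only [Fin.insertNth_apply_same, Fin.insertNth_apply_succAbove, ins, hb, if_true,
    Bool.false_eq_true, if_false]
  ring

private theorem sum_insQ2 {n : ℕ} (i : Fin (n + 1)) (F : (Fin (n + 1) → Bool) → ℝ[X]) :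
    ∑ x : Fin (n + 1) → Bool, F x
      = ∑ y : Fin n → Bool, (F (Fin.insertNth i true y) + F (Fin.insertNth i false y)) := by
  rw [← (Fin.insertNthEquiv (fun _ : Fin (n + 1) => Bool) i).sum_comp, Fintype.sum_prod_type,
    Fintype.sum_bool, ← Finset.sum_add_distrib]
  rfl

private theorem erase_eqQ2 {n : ℕ} (i : Fin (n + 1)) :
    (univ : Finset (Fin (n + 1))).erase i = univ.map (Fin.succAboveEmb i) := by
  ext j
  simp [Fin.exists_succAbove_eq_iff]

private theorem oneQ2 (n : ℕ) (g : (Fin (n + 1) → Bool) → ℝ) (i : Fin (n + 1)) :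
    ∑ x : Fin (n + 1) → Bool, C (g x) * ((∏ j ∈ univ.erase i, hb (x j)) * derivative (hb (x i)))
      = psiP n (ins i true g) - psiP n (ins i false g) := by
  rw [sum_insQ2 i, erase_eqQ2]
  unfold psiP ins
  rw [← Finset.sum_sub_distrib]
  apply Finset.sum_congr rfl
  intro y _
  simp only [Finset.prod_map, Fin.succAboveEmb_apply, Fin.insertNth_apply_succAbove,
    Fin.insertNth_apply_same]
  simp [hb]
  ring

/-- [Q2] Russo-Margulis.  derivative of the product: Polynomial.derivative_prod (sum over i of the product over
univ.erase i times derivative (hb (x i)), which is 1 or -1); exchange the sums; for fixed i reindex as in Q1; the product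
over univ.erase i is the product over Fin n via succAbove.  Alternative: for fixed i, write by Q1-type splitting
sum_x C (g x) * derivative (hb (x i)) * prod_(j <> i) hb (x j) = psiP n (ins i true g) - psiP n (ins i false g). -/
theorem derivative_psiP (n : ℕ) (g : (Fin (n + 1) → Bool) → ℝ) :
    derivative (psiP (n + 1) g) = ∑ i, (psiP n (ins i true g) - psiP n (ins i false g)) := by
  have h : ∀ i, psiP n (ins i true g) - psiP n (ins i false g) = _ := fun i => (oneQ2 n g i).symm
  rw [Finset.sum_congr rfl (fun i _ => h i), Finset.sum_comm]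
  unfold psiP
  rw [Polynomial.derivative_sum]
  apply Finset.sum_congr rfl
  intro x _
  rw [Polynomial.derivative_C_mul, Polynomial.derivative_prod_finset, Finset.mul_sum]

private lemma chi_map_ins63 {n : ℕ} (i : Fin (n + 1)) (b : Bool) (S : Finset (Fin n))
    (y : Fin n → Bool) : chi (S.map (Fin.succAboveEmb i)) (Fin.insertNth i b y) = chi S y := by
  unfold chi
  rw [Finset.prod_map]
  apply Finset.prod_congr rfl
  intro j _
  rw [Fin.succAboveEmb_apply, Fin.insertNth_apply_succAbove]

private lemma chi_insert_ins63 {n : ℕ} (i : Fin (n + 1)) (b : Bool) (S : Finset (Fin n))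
    (y : Fin n → Bool) :
    chi (insert i (S.map (Fin.succAboveEmb i))) (Fin.insertNth i b y) = sgn b * chi S y := by
  rw [← chi_map_ins63 i b S y]
  unfold chi
  rw [Finset.prod_insert, Fin.insertNth_apply_same]
  intro h
  rw [Finset.mem_map] at h
  obtain ⟨j, _, hj⟩ := h
  exact Fin.succAbove_ne i j hj

/-- [Q4a] Fourier coefficients of a restriction (generalises fourier_avg0 / fourier_dif0 of Beat/Comp.lean from
Fin.cons to Fin.insertNth i; chi over S.map (Fin.succAboveEmb i) at insertNth i b y is chi S y, etc.). -/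
theorem fourier_ins (n : ℕ) (i : Fin (n + 1)) (b : Bool) (g : (Fin (n + 1) → Bool) → ℝ) (S : Finset (Fin n)) :
    fourier (ins i b g) S = fourier g (S.map (Fin.succAboveEmb i)) +
      sgn b * fourier g (insert i (S.map (Fin.succAboveEmb i))) := by
  unfold fourier
  rw [sum_ins63 i, sum_ins63 i]
  simp only [chi_map_ins63, chi_insert_ins63, Fintype.card_fin, sgn_true, sgn_false, ins]
  rw [pow_succ, mul_div_assoc', ← add_div, div_eq_div_iff (by positivity) (by positivity),
    Finset.mul_sum, ← Finset.sum_add_distrib, Finset.sum_mul, Finset.sum_mul]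
  apply Finset.sum_congr rfl
  intro y _
  cases b
  · simp only [sgn_false]; ring
  · simp only [sgn_true]; ring

/-- [Q4] restrictions do not increase the degree: fourier_ins, degree_le_of_forall, fourier_eq_zero_of_degree_lt,
card_map, card_insert. -/
theorem degree_ins_le (n : ℕ) (i : Fin (n + 1)) (b : Bool) (g : (Fin (n + 1) → Bool) → ℝ) :
    degree (ins i b g) ≤ degree g := by
  apply degree_le_of_forall
  intro S hS
  have h1 : degree g < (S.map (Fin.succAboveEmb i)).card := by
    rw [Finset.card_map]; exact hS
  have h2 : degree g < (insert i (S.map (Fin.succAboveEmb i))).card := by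
    refine lt_of_lt_of_le h1 (Finset.card_le_card (Finset.subset_insert _ _))
  rw [fourier_ins, fourier_eq_zero_of_degree_lt g _ h1, fourier_eq_zero_of_degree_lt g _ h2]
  simp

private theorem fourier_lin_aux (n : ℕ) (p q : (Fin n → Bool) → ℝ) (S : Finset (Fin n)) :
    fourier (fun y => 1 * p y + (-1) * q y) S = fourier p S - fourier q S := by
  unfold fourier
  rw [← sub_div]
  congr 1
  rw [← Finset.sum_sub_distrib]
  refine Finset.sum_congr rfl fun x _ => ?_
  ring

private theorem card_ins_aux (n : ℕ) (S : Finset (Fin n)) :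
    (insert (0 : Fin (n + 1)) (S.map (Fin.succAboveEmb 0))).card = S.card + 1 := by
  rw [Finset.card_insert_of_notMem, Finset.card_map]
  intro h
  rw [Finset.mem_map] at h
  obtain ⟨a, _, ha⟩ := h
  exact Fin.succAbove_ne 0 a ha

/-- [Q3] degree of psiP.  Induction on n (generalizing d, g).  n = 0: psiP = C (g elim0) and g elim0 = fourier g empty
(so it is 0 if d = 0).  Step: by Q1 with i = 0 and Q0b, psiP (n+1) g = psiP n (ins 0 false g) + X * psiP n D with
D y = ins 0 true g y - ins 0 false g y; by fourier_ins, fourier D S = 2 * fourier g (insert 0 (S.map ..)) vanishes for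
card S >= d - 1, and ins 0 false g has no coefficient at levels >= d.  (For d = 0 use the hypothesis with d = 0 for both.) -/
theorem degree_psiP_lt (n : ℕ) (d : ℕ) (g : (Fin n → Bool) → ℝ)
    (hg : ∀ S : Finset (Fin n), d ≤ S.card → fourier g S = 0) : (psiP n g).degree < d := by
  rw [Polynomial.degree_lt_iff_coeff_zero]
  induction n generalizing d with
  | zero =>
    intro m hm
    rw [psiP_zero, coeff_C]
    split_ifs with h0
    · have hd : d = 0 := by omega
      have h1 := hg ∅ (by simp [hd])
      have h2 : fourier g ∅ = g Fin.elim0 := by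
        unfold fourier chi
        simp only [Finset.prod_empty, mul_one, Fintype.card_fin, pow_zero, div_one]
        rw [Fintype.sum_unique]
        exact congrArg g (Subsingleton.elim _ _)
      rw [← h2, h1]
    · rfl
  | succ n ih =>
    intro m hm
    have hsplit : psiP (n + 1) g = psiP n (ins 0 false g) +
        X * psiP n (fun y => 1 * ins 0 true g y + (-1) * ins 0 false g y) := by
      rw [psiP_split n 0 g, psiP_lin]
      simp only [map_one, map_neg, one_mul, neg_mul]
      ring
    rw [hsplit, coeff_add]
    have h0 : (psiP n (ins 0 false g)).coeff m = 0 := by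
      refine ih d _ (fun S hS => ?_) m hm
      rw [fourier_ins, hg _ (by rw [Finset.card_map]; exact hS),
        hg _ (by rw [card_ins_aux]; omega)]
      simp
    have h1 : ∀ m', d - 1 ≤ m' →
        (psiP n (fun y => 1 * ins 0 true g y + (-1) * ins 0 false g y)).coeff m' = 0 := by
      refine ih (d - 1) _ (fun S hS => ?_)
      rw [fourier_lin_aux, fourier_ins, fourier_ins, hg (insert 0 _) (by rw [card_ins_aux]; omega)]
      simp
    rw [h0, zero_add]
    cases m with
    | zero => simp
    | succ m' =>
      rw [coeff_X_mul]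
      exact h1 m' (by omega)

/-- [Q5a] value at 1/2 is the mean: every product is (1/2)^n. -/
theorem psiP_eval_half (n : ℕ) (g : (Fin n → Bool) → ℝ) : (psiP n g).eval (1 / 2) = fourier g ∅ := by
  have hh : ∀ b : Bool, (hb b).eval (1 / 2 : ℝ) = 1 / 2 := by
    intro b
    cases b
    · simp only [hb, Bool.false_eq_true, if_false, eval_sub, eval_one, eval_X]
      norm_num
    · simp only [hb, if_true, eval_X]
  unfold psiP fourier
  rw [eval_finsetSum, Finset.sum_div]
  refine Finset.sum_congr rfl ?_
  intro x _
  rw [eval_mul, eval_C, eval_prod]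
  have h1 : ∏ j, (hb (x j)).eval (1 / 2 : ℝ) = (1 / 2 : ℝ) ^ n := by
    rw [Finset.prod_congr rfl (fun j _ => hh (x j))]
    simp
  rw [h1]
  have h2 : chi (∅ : Finset (Fin n)) x = 1 := by
    simp [chi]
  rw [h2, Fintype.card_fin, mul_one, one_div, inv_pow, div_eq_mul_inv]

/-- [Q5] derivative at 1/2.  n = 0: both sides 0.  n + 1: derivative_psiP, psiP_eval_half, fourier_ins with S = empty:
fourier (ins i true g) empty - fourier (ins i false g) empty = 2 * fourier g {i}. -/
theorem derivative_psiP_eval_half (n : ℕ) (g : (Fin n → Bool) → ℝ) :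
    (derivative (psiP n g)).eval (1 / 2) = 2 * linSum g := by
  cases n with
  | zero =>
    rw [psiP_zero]
    simp [linSum]
  | succ n =>
    rw [derivative_psiP, eval_finsetSum, linSum, Finset.mul_sum]
    refine Finset.sum_congr rfl (fun i _ => ?_)
    rw [eval_sub, psiP_eval_half, psiP_eval_half, fourier_ins, fourier_ins]
    simp only [Finset.map_empty, sgn]
    have e : insert i (∅ : Finset (Fin (n + 1))) = {i} := rfl
    rw [e]
    norm_num
    ring

end Vale.Agent.P047.D4
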